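import Vale.Agent.P032.Basic
import Mathlib.MeasureTheory.Measure.Hausdorff
import Mathlib.MeasureTheory.Measure.Lebesgue.Complex
import Mathlib.MeasureTheory.Measure.Lebesgue.VolumeOfBalls
import Mathlib.MeasureTheory.Measure.Prod
import Mathlib.MeasureTheory.Measure.Haar.Unique

/-!
Measure estimates for two transversal families of unit circles.
-/

open Complex Set Filter Topology MeasureTheory Metric
open scoped ENNReal NNReal

namespace Vale.Agent.P032

/-- The length of the set of angles at which the unit circle about `z` meets `A`. -/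
noncomputable def sect (A : Set ℂ) (z : ℂ) : ℝ≥0∞ := volume {θ : ℝ | z + uv θ ∈ A}

lemma measurable_sect {A : Set ℂ} (hA : MeasurableSet A) : Measurable (sect A) :=
  measurable_measure_prodMk_left (ν := (volume : Measure ℝ))
    (s := (fun p : ℂ × ℝ => p.1 + uv p.2) ⁻¹' A)
    (hA.preimage (by have := continuous_uv; fun_prop))

/-- Images under Lipschitz maps of the plane. -/
lemma volume_lip_image {g : ℂ → ℂ} {t : Set ℂ} {K : ℝ≥0} (hg : LipschitzOnWith K g t) :
    volume (g '' t) ≤ (K : ℝ≥0∞) ^ 2 * volume t := by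
  have hfin : ((Module.finrank ℝ ℂ : ℕ) : ℝ) = 2 := by simp [Complex.finrank_real_complex]
  have : (μH[(2 : ℝ)] : Measure ℂ).IsAddHaarMeasure := by
    rw [← hfin]; infer_instance
  have h := hg.hausdorffMeasure_image_le (d := 2) (by norm_num)
  rw [Measure.isAddLeftInvariant_eq_smul (volume : Measure ℂ) μH[(2 : ℝ)]]
  simp only [Measure.smul_apply, ENNReal.smul_def, smul_eq_mul]
  rw [show (2 : ℝ) = ((2 : ℕ) : ℝ) by norm_num, ENNReal.rpow_natCast] at h
  simp only [Nat.cast_ofNat] at h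
  calc _ ≤ _ * ((K : ℝ≥0∞) ^ 2 * μH[(2 : ℝ)] t) := mul_le_mul_right h _
    _ = _ := by ring

/-- The point reached from `y` by two unit steps. -/
noncomputable def pol (y : ℂ) (β γ : ℝ) (h : ℂ) : ℂ := y - uv (h.re + β) + uv (h.im + γ)

/-- Linearisation of `pol`. -/
noncomputable def lin (β γ : ℝ) (h : ℂ) : ℂ := -I * uv β * h.re + I * uv γ * h.im

lemma lin_lower (β γ : ℝ) (h : ℂ) : (1 - |Real.cos (β - γ)|) * ‖h‖ ≤ ‖lin β γ h‖ := by
  have hc : |Real.cos (β - γ)| ≤ 1 := Real.abs_cos_le_one _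
  have e : ‖lin β γ h‖ ^ 2 = h.re ^ 2 + h.im ^ 2 - 2 * Real.cos (β - γ) * (h.re * h.im) := by
    have h1 := Real.sin_sq_add_cos_sq β
    have h2 := Real.sin_sq_add_cos_sq γ
    simp only [lin, Complex.sq_norm, Complex.normSq_apply, add_re, add_im, mul_re, mul_im,
      neg_re, neg_im, I_re, I_im, ofReal_re, ofReal_im, uv_re, uv_im, Real.cos_sub]
    linear_combination h.re ^ 2 * h1 + h.im ^ 2 * h2
  have hn : ‖h‖ ^ 2 = h.re ^ 2 + h.im ^ 2 := by rw [Complex.sq_norm, Complex.normSq_apply]; ring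
  have h3 : 2 * Real.cos (β - γ) * (h.re * h.im) ≤ |Real.cos (β - γ)| * ‖h‖ ^ 2 := by
    rw [hn]
    rcases abs_cases (Real.cos (β - γ)) with ⟨ha, hb⟩ | ⟨ha, hb⟩ <;> rw [ha] <;>
      nlinarith [mul_nonneg (abs_nonneg (Real.cos (β - γ))) (sq_nonneg (h.re - h.im)),
        mul_nonneg (abs_nonneg (Real.cos (β - γ))) (sq_nonneg (h.re + h.im))]
  have h4 : ((1 - |Real.cos (β - γ)|) * ‖h‖) ^ 2 ≤ ‖lin β γ h‖ ^ 2 := by
    nlinarith [mul_nonneg (sub_nonneg.2 hc) (abs_nonneg (Real.cos (β - γ))),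
      mul_nonneg (mul_nonneg (sub_nonneg.2 hc) (abs_nonneg (Real.cos (β - γ)))) (sq_nonneg ‖h‖)]
  exact (pow_le_pow_iff_left₀ (mul_nonneg (sub_nonneg.2 hc) (norm_nonneg _)) (norm_nonneg _)
    two_ne_zero).1 h4

lemma hasDerivAt_uv (t : ℝ) : HasDerivAt uv (I * uv t) t := by
  have h := ((hasDerivAt_id t).ofReal_comp.mul_const I).cexp
  rw [show uv = fun x : ℝ => Complex.exp (x * I) from funext fun _ => rfl]
  simpa [mul_comm] using h

lemma uv_zero : uv 0 = 1 := by simp [uv]

lemma uv_sub_one_le (a : ℝ) : ‖uv a - 1‖ ≤ |a| := by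
  simpa [uv_zero] using convex_univ.norm_image_sub_le_of_norm_hasDerivWithin_le
    (f := uv) (C := 1) (fun t _ => (hasDerivAt_uv t).hasDerivWithinAt)
    (fun t _ => by simp) (mem_univ (0 : ℝ)) (mem_univ a)

lemma uv_remainder {w a b : ℝ} (ha : |a| ≤ w) (hb : |b| ≤ w) :
    ‖(uv a - I * a) - (uv b - I * b)‖ ≤ w * |a - b| := by
  have := (convex_Icc (-w) w).norm_image_sub_le_of_norm_hasDerivWithin_le
    (f := fun t : ℝ => uv t - I * t) (f' := fun t => I * (uv t - 1)) (C := w)
    (fun t _ => by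
      have h := (hasDerivAt_uv t).sub ((hasDerivAt_id t).ofReal_comp.const_mul I)
      exact (h.congr_deriv (by simp; ring)).hasDerivWithinAt)
    (fun t ht => by
      rw [norm_mul, norm_I, one_mul]
      exact (uv_sub_one_le t).trans (abs_le.2 ht))
    (abs_le.1 hb) (abs_le.1 ha)
  simpa [Real.norm_eq_abs] using this

/-- The square of half side `w`. -/
def sq (w : ℝ) : Set ℂ := {h | |h.re| ≤ w ∧ |h.im| ≤ w}

lemma pol_lower {y h h' : ℂ} {β γ w : ℝ} (hh : h ∈ sq w) (hh' : h' ∈ sq w) :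
    (1 - |Real.cos (β - γ)| - 2 * w) * ‖h - h'‖ ≤ ‖pol y β γ h - pol y β γ h'‖ := by
  have e : pol y β γ h - pol y β γ h' = lin β γ (h - h')
      + (- uv β * ((uv h.re - I * h.re) - (uv h'.re - I * h'.re))
        + uv γ * ((uv h.im - I * h.im) - (uv h'.im - I * h'.im))) := by
    simp only [pol, lin, uv_add, sub_re, sub_im, ofReal_sub]; ring
  have r1 := uv_remainder hh.1 hh'.1
  have r2 := uv_remainder hh.2 hh'.2
  have hw : 0 ≤ w := (abs_nonneg _).trans hh.1
  have a1 : |h.re - h'.re| ≤ ‖h - h'‖ := by simpa using Complex.abs_re_le_norm (h - h')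
  have a2 : |h.im - h'.im| ≤ ‖h - h'‖ := by simpa using Complex.abs_im_le_norm (h - h')
  have hR : ‖- uv β * ((uv h.re - I * h.re) - (uv h'.re - I * h'.re))
        + uv γ * ((uv h.im - I * h.im) - (uv h'.im - I * h'.im))‖ ≤ 2 * w * ‖h - h'‖ := by
    refine (norm_add_le _ _).trans ?_
    rw [norm_mul, norm_mul, norm_neg, norm_uv, norm_uv, one_mul, one_mul]
    nlinarith [mul_le_mul_of_nonneg_left a1 hw, mul_le_mul_of_nonneg_left a2 hw]
  rw [e]
  have := lin_lower β γ (h - h')
  have := norm_sub_le_norm_add (lin β γ (h - h')) (- uv β * ((uv h.re - I * h.re)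
    - (uv h'.re - I * h'.re)) + uv γ * ((uv h.im - I * h.im) - (uv h'.im - I * h'.im)))
  linarith

lemma pol_mem_ball {y y' h : ℂ} {β γ w : ℝ} (hc : ‖y - uv β + uv γ - y'‖ ≤ w) (hh : h ∈ sq w) :
    pol y β γ h ∈ closedBall y' (3 * w) := by
  rw [mem_closedBall, dist_eq_norm]
  have e : pol y β γ h - y' = (y - uv β + uv γ - y')
      + (- uv β * (uv h.re - 1) + uv γ * (uv h.im - 1)) := by
    simp only [pol, uv_add]; ring
  rw [e]
  refine (norm_add_le _ _).trans ?_
  have := norm_add_le (- uv β * (uv h.re - 1)) (uv γ * (uv h.im - 1))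
  rw [norm_mul, norm_mul, norm_neg, norm_uv, norm_uv, one_mul, one_mul] at this
  linarith [(uv_sub_one_le h.re).trans hh.1, (uv_sub_one_le h.im).trans hh.2]

/-- The exceptional part of a short arc has small length. -/
lemma arc_bad {A : Set ℂ} (hA : MeasurableSet A) {y y' : ℂ} {β γ w τ : ℝ} (hw : 0 < w)
    (hτ : 4 * w ≤ τ) (hcos : τ ≤ 1 - |Real.cos (β - γ)|)
    (hc : ‖y - uv β + uv γ - y'‖ ≤ w) :
    volume {s ∈ Icc (-w) w | sect A (y - uv (s + β)) = 0} * ENNReal.ofReal (2 * w)
      ≤ ENNReal.ofReal ((2 / τ) ^ 2) * volume (Aᶜ ∩ closedBall y' (3 * w)) := by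
  have hτ0 : 0 < τ := by linarith
  set P := pol y β γ with hP
  set X : Set ℂ := sq w ∩ P ⁻¹' Aᶜ with hX
  have hcont : Continuous P := by have := continuous_uv; unfold P pol; fun_prop
  have hlow : ∀ h ∈ sq w, ∀ h' ∈ sq w, τ / 2 * ‖h - h'‖ ≤ ‖P h - P h'‖ := fun h hh h' hh' =>
    le_trans (mul_le_mul_of_nonneg_right (by linarith) (norm_nonneg _)) (pol_lower hh hh')
  have hinj : InjOn P (sq w) := by
    intro h hh h' hh' e
    have := hlow h hh h' hh'
    rw [e, sub_self, norm_zero] at this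
    exact sub_eq_zero.1 (norm_eq_zero.1 (le_antisymm (by nlinarith) (norm_nonneg _)))
  have hlip : LipschitzOnWith (2 / τ).toNNReal (Function.invFunOn P (sq w)) (P '' sq w) := by
    refine LipschitzOnWith.of_dist_le_mul ?_
    rintro _ ⟨a, ha, rfl⟩ _ ⟨b, hb, rfl⟩
    rw [hinj.leftInvOn_invFunOn ha, hinj.leftInvOn_invFunOn hb, dist_eq_norm, dist_eq_norm,
      Real.coe_toNNReal _ (by positivity)]
    calc ‖a - b‖ = 2 / τ * (τ / 2 * ‖a - b‖) := by field_simp
      _ ≤ _ := mul_le_mul_of_nonneg_left (hlow a ha b hb) (by positivity)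
  have hXsub : X ⊆ sq w := inter_subset_left
  have himg : Function.invFunOn P (sq w) '' (P '' X) = X :=
    (hinj.leftInvOn_invFunOn.mono hXsub).image_image
  have h1 : volume X ≤ ENNReal.ofReal ((2 / τ) ^ 2) * volume (Aᶜ ∩ closedBall y' (3 * w)) := by
    have := volume_lip_image (hlip.mono (image_mono hXsub))
    rw [himg] at this
    refine this.trans ?_
    rw [ENNReal.ofReal_pow (by positivity)]
    refine mul_le_mul' le_rfl (measure_mono ?_)
    rintro _ ⟨h, hh, rfl⟩
    exact ⟨hh.2, pol_mem_ball hc hh.1⟩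
  refine le_trans ?_ h1
  have hsq : sq w = Complex.re ⁻¹' Icc (-w) w ∩ Complex.im ⁻¹' Icc (-w) w := by
    ext z; simp [sq, abs_le]
  have hXm : MeasurableSet X := by
    rw [hX, hsq]
    exact ((measurableSet_Icc.preimage Complex.measurable_re).inter
      (measurableSet_Icc.preimage Complex.measurable_im)).inter
      (hA.compl.preimage hcont.measurable)
  rw [← (Complex.volume_preserving_equiv_real_prod.symm).measure_preimage hXm.nullMeasurableSet,
    Measure.volume_eq_prod,
    Measure.prod_apply (hXm.preimage Complex.measurableEquivRealProd.symm.measurable)]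
  set S := {s ∈ Icc (-w) w | sect A (y - uv (s + β)) = 0}
  have hSm : MeasurableSet S := measurableSet_Icc.inter
    (((measurable_sect hA).comp (by have := continuous_uv; fun_prop)) (measurableSet_singleton 0))
  calc volume S * ENNReal.ofReal (2 * w) = ∫⁻ _ in S, ENNReal.ofReal (2 * w) := by
        rw [setLIntegral_const, mul_comm]
    _ ≤ ∫⁻ s in S, volume (Prod.mk s ⁻¹' (Complex.measurableEquivRealProd.symm ⁻¹' X)) := by
        refine setLIntegral_mono' hSm fun s hs => ?_
        have hz : volume {b : ℝ | y - uv (s + β) + uv (b + γ) ∈ A} = 0 := by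
          rw [show {b : ℝ | y - uv (s + β) + uv (b + γ) ∈ A}
            = (fun b => b + γ) ⁻¹' {b : ℝ | y - uv (s + β) + uv b ∈ A} from rfl,
            measure_preimage_add_right]
          exact hs.2
        calc ENNReal.ofReal (2 * w) = volume (Icc (-w) w) := by rw [Real.volume_Icc]; congr 1; ring
          _ = volume (Icc (-w) w \ {b : ℝ | y - uv (s + β) + uv (b + γ) ∈ A}) :=
            (measure_sdiff_null hz).symm
          _ ≤ _ := measure_mono fun b hb => by
            simpa [X, P, pol, sq, Complex.measurableEquivRealProd_symm_apply, abs_le.2 hb.1,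
              abs_le.2 hs.1] using hb.2
    _ ≤ _ := setLIntegral_le_lintegral _ _

end Vale.Agent.P032
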