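import Mathlib.Analysis.SpecialFunctions.Complex.Circle
import Mathlib.Analysis.SpecialFunctions.Trigonometric.Bounds
import Mathlib.Topology.Baire.Lemmas
import Mathlib.Topology.Order.IntermediateValue
import Mathlib.Analysis.Complex.Basic
import Mathlib.Analysis.Real.Pi.Bounds

/-!
Closed-cover reformulation of a five-colouring of the plane and its basic geometric lemmas.
-/

open Complex Set Filter Topology

namespace Vale.Agent.P032

/-- The unit vector at angle `θ`. -/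
noncomputable def uv (θ : ℝ) : ℂ := Complex.exp (θ * I)

lemma uv_add (a b : ℝ) : uv (a + b) = uv a * uv b := by
  unfold uv; rw [← Complex.exp_add]; push_cast; ring_nf

@[simp] lemma norm_uv (a : ℝ) : ‖uv a‖ = 1 := Complex.norm_exp_ofReal_mul_I a

lemma uv_re (a : ℝ) : (uv a).re = Real.cos a := Complex.exp_ofReal_mul_I_re a

lemma uv_im (a : ℝ) : (uv a).im = Real.sin a := Complex.exp_ofReal_mul_I_im a

lemma continuous_uv : Continuous uv := by unfold uv; fun_prop

lemma uv_ne_zero (a : ℝ) : uv a ≠ 0 := Complex.exp_ne_zero _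

/-- `im (w * conj v)`: vanishes iff `w` is parallel to `v`. -/
def crs (w v : ℂ) : ℝ := w.im * v.re - w.re * v.im

/-- Real inner product. -/
def dot (w v : ℂ) : ℝ := w.re * v.re + w.im * v.im

lemma crs_uv (a b : ℝ) : crs (uv a) (uv b) = Real.sin (a - b) := by
  simp only [crs, uv_re, uv_im, Real.sin_sub]

lemma normSq_uv_sub (w : ℂ) (a : ℝ) :
    ‖uv a - w‖ ^ 2 = 1 + ‖w‖ ^ 2 - 2 * dot w (uv a) := by
  have h := Real.sin_sq_add_cos_sq a
  simp only [Complex.sq_norm, Complex.normSq_apply, dot, Complex.sub_re, Complex.sub_im, uv_re,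
    uv_im]
  nlinarith [h]

lemma normSq_sub (w v : ℂ) : ‖v - w‖ ^ 2 = ‖v‖ ^ 2 + ‖w‖ ^ 2 - 2 * dot w v := by
  simp only [Complex.sq_norm, Complex.normSq_apply, dot, Complex.sub_re, Complex.sub_im]
  ring

/-- The data obtained from a colouring with Baire-measurable classes. -/
structure Config (K : Fin 5 → Set ℂ) : Prop where
  closed : ∀ c, IsClosed (K c)
  cover : ∀ x, ∃ c, x ∈ K c
  reg : ∀ c, K c ⊆ closure (interior (K c))
  adj : ∀ c x y, x ∈ interior (K c) → ‖y - x‖ = 1 → y ∉ K c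

variable {K : Fin 5 → Set ℂ}

lemma Config.comp (h : Config K) (σ : Equiv.Perm (Fin 5)) : Config (fun c => K (σ c)) where
  closed c := h.closed _
  cover x := by
    obtain ⟨c, hc⟩ := h.cover x
    exact ⟨σ.symm c, by simpa using hc⟩
  reg c := h.reg _
  adj c := h.adj _

lemma Config.eventually_sub (h : Config K) (x : ℂ) :
    ∀ᶠ z in 𝓝 x, ∀ c, z ∈ K c → x ∈ K c := by
  refine eventually_all.2 fun c => ?_
  by_cases hx : x ∈ K c
  · exact Eventually.of_forall fun _ _ => hx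
  · filter_upwards [(h.closed c).isOpen_compl.mem_nhds hx] with z hz hzc
    exact absurd hzc hz

lemma Config.no_cross (h : Config K) {c : Fin 5} {C : Set ℂ} (hC : IsPreconnected C)
    (hCK : C ⊆ K c) {z a b : ℂ} (hz : z ∈ K c) (ha : a ∈ C) (hb : b ∈ C)
    (ha' : ‖a - z‖ < 1) (hb' : 1 < ‖b - z‖) : False := by
  obtain ⟨z', hz', hd⟩ := Metric.mem_closure_iff.1 (h.reg c hz)
    (min (1 - ‖a - z‖) (‖b - z‖ - 1)) (lt_min (by linarith) (by linarith))
  rw [dist_eq_norm, lt_min_iff] at hd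
  have h1 : ‖a - z'‖ ≤ ‖a - z‖ + ‖z - z'‖ := norm_sub_le_norm_sub_add_norm_sub _ _ _
  have h2 : ‖b - z‖ ≤ ‖b - z'‖ + ‖z' - z‖ := norm_sub_le_norm_sub_add_norm_sub _ _ _
  rw [norm_sub_rev z' z] at h2
  obtain ⟨w, hw, hw1⟩ := hC.intermediate_value₂ ha hb (f := fun w => ‖w - z'‖)
    (g := fun _ => (1 : ℝ)) (by fun_prop) (by fun_prop) (by linarith [hd.1]) (by linarith [hd.2])
  exact h.adj c z' w hz' hw1 (hCK hw)

/-- The arc of the unit circle about `p` near angle `s` lies in `K c`. -/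
def Arc (K : Fin 5 → Set ℂ) (p : ℂ) (s : ℝ) (c : Fin 5) : Prop :=
  ∀ᶠ τ in 𝓝 s, p + uv τ ∈ K c

lemma Arc.mem {p : ℂ} {s : ℝ} {c : Fin 5} (hA : Arc K p s c) : p + uv s ∈ K c := hA.self_of_nhds

lemma Arc.interval {p : ℂ} {s : ℝ} {c : Fin 5} (hA : Arc K p s c) :
    ∃ η > 0, ∀ τ, |τ - s| ≤ η → p + uv τ ∈ K c := by
  obtain ⟨η, hη, hB⟩ := Metric.eventually_nhds_iff.1 hA
  refine ⟨η / 2, by positivity, fun τ hτ => hB ?_⟩
  rw [Real.dist_eq]; linarith

lemma Config.no_cross_arc (h : Config K) {p z : ℂ} {s η t₁ t₂ : ℝ} {c : Fin 5}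
    (hJ : ∀ τ, |τ - s| ≤ η → p + uv τ ∈ K c) (hz : z ∈ K c) (h₁ : |t₁| ≤ η) (h₂ : |t₂| ≤ η)
    (hlt : ‖uv (s + t₁) - (z - p)‖ ^ 2 < 1) (hgt : 1 < ‖uv (s + t₂) - (z - p)‖ ^ 2) : False := by
  have hη : (0 : ℝ) ≤ η := le_trans (abs_nonneg _) h₁
  apply h.no_cross (C := (fun τ => p + uv τ) '' Icc (s - η) (s + η))
    (isPreconnected_Icc.image _ (by have := continuous_uv; fun_prop))
    (by rintro _ ⟨τ, ⟨hτ1, hτ2⟩, rfl⟩; exact hJ τ (abs_le.2 ⟨by linarith, by linarith⟩)) hz
    ⟨s + t₁, ⟨by linarith [(abs_le.1 h₁).1], by linarith [(abs_le.1 h₁).2]⟩, rfl⟩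
    ⟨s + t₂, ⟨by linarith [(abs_le.1 h₂).1], by linarith [(abs_le.1 h₂).2]⟩, rfl⟩
  · have e : p + uv (s + t₁) - z = uv (s + t₁) - (z - p) := by ring
    show ‖p + uv (s + t₁) - z‖ < 1
    rw [e]; nlinarith [norm_nonneg (uv (s + t₁) - (z - p))]
  · have e : p + uv (s + t₂) - z = uv (s + t₂) - (z - p) := by ring
    show 1 < ‖p + uv (s + t₂) - z‖
    rw [e]; nlinarith [norm_nonneg (uv (s + t₂) - (z - p))]

lemma dot_uv_add (w : ℂ) (s t : ℝ) :
    dot w (uv (s + t)) = dot w (uv s) * Real.cos t + crs w (uv s) * Real.sin t := by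
  simp only [dot, crs, uv_re, uv_im, Real.cos_add, Real.sin_add]; ring

lemma sin_ge {t : ℝ} (h0 : 0 < t) (h1 : t ≤ 1) : 3 / 4 * t < Real.sin t := by
  nlinarith [Real.sin_gt_sub_cube h0, mul_le_mul_of_nonneg_left h1 h0.le, sq_nonneg t,
    mul_le_mul h1 h1 h0.le zero_le_one]

/-- An arc in `K c` meets the unit circle of a point of `K c` only tangentially. -/
lemma Config.cross (h : Config K) {p z : ℂ} {s : ℝ} {c : Fin 5} (hA : Arc K p s c)
    (hz : z ∈ K c) (hd : ‖p + uv s - z‖ = 1) : crs (z - p) (uv s) = 0 := by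
  by_contra hB
  obtain ⟨η, hη, hJ⟩ := hA.interval
  set w := z - p with hw
  set A := dot w (uv s)
  set B := crs w (uv s)
  have hw2 : ‖w‖ ^ 2 = 2 * A := by
    have h1 := normSq_uv_sub w s
    have h2 : uv s - w = p + uv s - z := by rw [hw]; ring
    rw [h2, hd] at h1
    linarith
  set t := min η (min 1 (|B| / (|A| + 1)))
  have hBpos : 0 < |B| := abs_pos.2 hB
  have ht0 : 0 < t := lt_min hη (lt_min one_pos (by positivity))
  have ht1 : t ≤ 1 := (min_le_right _ _).trans (min_le_left _ _)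
  have htη : |t| ≤ η := by rw [abs_of_pos ht0]; exact min_le_left _ _
  have htη' : |-t| ≤ η := by rwa [abs_neg]
  have htA : (|A| + 1) * t ≤ |B| := by
    rw [mul_comm]; exact (le_div_iff₀ (by positivity)).1 ((min_le_right _ _).trans (min_le_right _ _))
  have hc : |A * (1 - Real.cos t)| ≤ |A| * t ^ 2 / 2 := by
    have h0 : 0 ≤ 1 - Real.cos t := by linarith [Real.cos_le_one t]
    rw [abs_mul, abs_of_nonneg h0]
    nlinarith [Real.one_sub_sq_div_two_le_cos (x := t), abs_nonneg A]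
  have hs : 3 / 4 * t < Real.sin t := sin_ge ht0 ht1
  have key : |A * (1 - Real.cos t)| < |B * Real.sin t| := by
    rw [abs_mul B, abs_of_pos (by linarith : 0 < Real.sin t)]
    nlinarith [mul_le_mul_of_nonneg_right htA ht0.le, mul_lt_mul_of_pos_left hs hBpos,
      mul_pos hBpos ht0]
  have e1 : ‖uv (s + t) - w‖ ^ 2 = 1 + 2 * (A * (1 - Real.cos t) - B * Real.sin t) := by
    rw [normSq_uv_sub, hw2, dot_uv_add]; ring
  have e2 : ‖uv (s + -t) - w‖ ^ 2 = 1 + 2 * (A * (1 - Real.cos t) + B * Real.sin t) := by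
    rw [normSq_uv_sub, hw2, dot_uv_add, Real.cos_neg, Real.sin_neg]; ring
  rcases lt_abs.1 key with hp | hn
  · obtain ⟨k1, k2⟩ := abs_lt.1 (lt_of_le_of_lt le_rfl hp)
    exact h.no_cross_arc hJ hz htη htη' (by rw [← hw, e1]; linarith) (by rw [← hw, e2]; linarith)
  · obtain ⟨k1, k2⟩ := abs_lt.1 (lt_of_le_of_lt le_rfl hn)
    exact h.no_cross_arc hJ hz htη' htη (by rw [← hw, e2]; linarith) (by rw [← hw, e1]; linarith)

/-- Points of the tangent segment avoid the colours of a crossing arc. -/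
lemma Config.seg_avoid (h : Config K) {p : ℂ} {s : ℝ} {c : Fin 5} (hA : Arc K p s c) :
    ∀ᶠ t : ℝ in 𝓝 0, t ≠ 0 → p + t * I * uv s ∉ K c := by
  obtain ⟨η, hη, hJ⟩ := hA.interval
  set η' := min η 1
  have hη0 : 0 < η' := lt_min hη one_pos
  have hsin : 0 < Real.sin η' :=
    Real.sin_pos_of_pos_of_lt_pi hη0 (by linarith [min_le_right η 1, Real.pi_gt_three])
  filter_upwards [Metric.ball_mem_nhds (0 : ℝ) hsin] with t ht ht0 hmem
  rw [Metric.mem_ball, dist_zero_right, Real.norm_eq_abs] at ht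
  have hn : ‖(t : ℂ) * I * uv s‖ ^ 2 = t ^ 2 := by simp
  have hdot : dot ((t : ℂ) * I * uv s) (uv s) = 0 := by
    simp only [dot, Complex.mul_re, Complex.mul_im, Complex.ofReal_re, Complex.ofReal_im, I_re,
      I_im]
    ring
  have hcrs : crs ((t : ℂ) * I * uv s) (uv s) = t := by
    simp only [crs, Complex.mul_re, Complex.mul_im, Complex.ofReal_re, Complex.ofReal_im, I_re,
      I_im, uv_re, uv_im]
    linear_combination t * Real.sin_sq_add_cos_sq s
  have e : ∀ τ, ‖uv (s + τ) - (t : ℂ) * I * uv s‖ ^ 2 = 1 + t ^ 2 - 2 * t * Real.sin τ := by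
    intro τ; rw [normSq_uv_sub, hn, dot_uv_add, hdot, hcrs]; ring
  have hw : p + (t : ℂ) * I * uv s - p = (t : ℂ) * I * uv s := by ring
  have ha : |η'| ≤ η := by rw [abs_of_pos hη0]; exact min_le_left _ _
  have ha' : |-η'| ≤ η := by rwa [abs_neg]
  obtain ⟨k1, k2⟩ := abs_lt.1 ht
  rcases lt_or_gt_of_ne ht0 with hneg | hpos
  · exact h.no_cross_arc hJ hmem ha' ha
      (by rw [hw, e, Real.sin_neg]; nlinarith [mul_pos (neg_pos.2 hneg) hsin])
      (by rw [hw, e]; nlinarith [mul_pos (neg_pos.2 hneg) hsin, sq_nonneg t])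
  · exact h.no_cross_arc hJ hmem ha ha'
      (by rw [hw, e]; nlinarith [mul_pos hpos hsin])
      (by rw [hw, e, Real.sin_neg]; nlinarith [mul_pos hpos hsin, sq_nonneg t])

/-- Some colour of `p` avoids every colour on the arcs at angles `s` and `s + π`. -/
lemma Config.seg_exists (h : Config K) (p : ℂ) (s : ℝ) :
    ∃ c, p ∈ K c ∧ ¬ Arc K p s c ∧ ¬ Arc K p (s + Real.pi) c := by
  have hc : Tendsto (fun t : ℝ => p + t * I * uv s) (𝓝 0) (𝓝 p) := by
    have hf : Continuous fun t : ℝ => p + t * I * uv s := by fun_prop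
    simpa using hf.tendsto 0
  have hpi : uv (s + Real.pi) = -uv s := by
    rw [uv_add]; simp [uv]
  have hA : ∀ c, ∀ᶠ t : ℝ in 𝓝 0, t ≠ 0 → p + t * I * uv s ∈ K c →
      p ∈ K c ∧ ¬ Arc K p s c ∧ ¬ Arc K p (s + Real.pi) c := by
    intro c
    have e1 := hc.eventually (h.eventually_sub p)
    by_cases h1 : Arc K p s c
    · filter_upwards [h.seg_avoid h1] with t ht ht0 hm using absurd hm (ht ht0)
    by_cases h2 : Arc K p (s + Real.pi) c
    · have h3 : ∀ᶠ t : ℝ in 𝓝 0, -t ≠ 0 → p + ((-t : ℝ) : ℂ) * I * uv (s + Real.pi) ∉ K c :=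
        (Continuous.tendsto' (continuous_neg) (0 : ℝ) 0 neg_zero).eventually (h.seg_avoid h2)
      filter_upwards [h3] with t ht ht0 hm
      refine absurd ?_ (ht (neg_ne_zero.2 ht0))
      rw [hpi]; convert hm using 1; push_cast; ring
    filter_upwards [e1] with t ht _ hm using ⟨ht c hm, h1, h2⟩
  have hA' := (eventually_all.2 hA).filter_mono (nhdsWithin_le_nhds (s := {0}ᶜ))
  obtain ⟨t, ht, ht0⟩ := (hA'.and self_mem_nhdsWithin).exists
  obtain ⟨c, hcm⟩ := h.cover (p + t * I * uv s)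
  exact ⟨c, ht c ht0 hcm⟩

/-- If only `r` avoids the arcs, then `r` is absent on the unit circle about `p`. -/
lemma Config.seg_absent (h : Config K) {p z : ℂ} {s : ℝ} {r : Fin 5}
    (huniq : ∀ c, p ∈ K c → c ≠ r → Arc K p s c ∨ Arc K p (s + Real.pi) c)
    (hz : z ∈ K r) (hzp : ‖z - p‖ = 1) : crs (z - p) (uv s) = 0 := by
  by_contra hB
  have hpr : p ∈ K r := by
    obtain ⟨c, h1, h2, h3⟩ := h.seg_exists p s
    by_contra hne
    rcases huniq c h1 (fun e => hne (e ▸ h1)) with k | k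
    · exact h2 k
    · exact h3 k
  have hcont : Continuous fun t : ℝ => p + t * I * uv s := by fun_prop
  have hc : Tendsto (fun t : ℝ => p + t * I * uv s) (𝓝 0) (𝓝 p) := by simpa using hcont.tendsto 0
  have hpi : uv (s + Real.pi) = -uv s := by
    rw [uv_add]; simp [uv]
  have hall : ∀ c, ∀ᶠ t : ℝ in 𝓝 0, t ≠ 0 → p + t * I * uv s ∈ K c → c = r := by
    intro c
    by_cases hcr : c = r
    · exact Eventually.of_forall fun _ _ _ => hcr
    by_cases hpc : p ∈ K c
    · rcases huniq c hpc hcr with h1 | h2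
      · filter_upwards [h.seg_avoid h1] with t ht ht0 hm using absurd hm (ht ht0)
      · have h3 : ∀ᶠ t : ℝ in 𝓝 0, -t ≠ 0 → p + ((-t : ℝ) : ℂ) * I * uv (s + Real.pi) ∉ K c :=
          (Continuous.tendsto' (continuous_neg) (0 : ℝ) 0 neg_zero).eventually (h.seg_avoid h2)
        filter_upwards [h3] with t ht ht0 hm
        refine absurd ?_ (ht (neg_ne_zero.2 ht0))
        rw [hpi]; convert hm using 1; push_cast; ring
    · filter_upwards [hc.eventually (h.eventually_sub p)] with t ht _ hm using absurd (ht c hm) hpc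
  obtain ⟨η, hη, hball⟩ := Metric.eventually_nhds_iff.1 (eventually_all.2 hall)
  set B := crs (z - p) (uv s)
  set t := min (η / 2) |B|
  have hB0 : 0 < |B| := abs_pos.2 hB
  have ht0 : 0 < t := lt_min (by positivity) hB0
  have htη : t < η := by have := min_le_left (η / 2) |B|; linarith
  have hsub : (fun t : ℝ => p + t * I * uv s) '' Icc (-t) t ⊆ K r := by
    rintro _ ⟨u, hu, rfl⟩
    show p + u * I * uv s ∈ K r
    by_cases hu0 : u = 0
    · simpa [hu0] using hpr
    obtain ⟨c, hcm⟩ := h.cover (p + u * I * uv s)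
    have : dist u 0 < η := by
      rw [dist_zero_right, Real.norm_eq_abs]; exact lt_of_le_of_lt (abs_le.2 hu) htη
    rwa [← hball this c hu0 hcm]
  have e : ∀ u : ℝ, ‖p + u * I * uv s - z‖ ^ 2 = 1 + u ^ 2 - 2 * u * B := by
    intro u
    have e0 : p + u * I * uv s - z = (u : ℂ) * I * uv s - (z - p) := by ring
    have hn : ‖(u : ℂ) * I * uv s‖ ^ 2 = u ^ 2 := by simp
    have hd : dot (z - p) ((u : ℂ) * I * uv s) = u * B := by
      simp only [B, dot, crs, Complex.mul_re, Complex.mul_im, Complex.ofReal_re,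
        Complex.ofReal_im, I_re, I_im]
      ring
    rw [e0, normSq_sub, hn, hzp, hd]; ring
  have htB : t ≤ |B| := min_le_right _ _
  have mt : t ∈ Icc (-t) t := ⟨by linarith, le_rfl⟩
  have mt' : -t ∈ Icc (-t) t := ⟨le_rfl, by linarith⟩
  have hP := (isPreconnected_Icc (a := -t) (b := t)).image (fun t : ℝ => p + t * I * uv s)
    hcont.continuousOn
  rcases lt_or_gt_of_ne hB with hneg | hpos
  · rw [abs_of_neg hneg] at htB
    exact h.no_cross hP hsub hz (mem_image_of_mem _ mt') (mem_image_of_mem _ mt)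
      (by nlinarith [e (-t), norm_nonneg (p + ((-t : ℝ) : ℂ) * I * uv s - z)])
      (by nlinarith [e t, norm_nonneg (p + (t : ℂ) * I * uv s - z)])
  · rw [abs_of_pos hpos] at htB
    exact h.no_cross hP hsub hz (mem_image_of_mem _ mt) (mem_image_of_mem _ mt')
      (by nlinarith [e t, norm_nonneg (p + (t : ℂ) * I * uv s - z)])
      (by nlinarith [e (-t), norm_nonneg (p + ((-t : ℝ) : ℂ) * I * uv s - z)])

end Vale.Agent.P032
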