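import Mathlib.Data.Nat.Bitwise
import Mathlib.Data.List.Basic

/-!
A small proof checker for unsatisfiability of clause sets by unit propagation with hints.
A literal is a natural number: `2 * v` for the variable `v`, `2 * v + 1` for its negation.
-/

namespace Vale.Agent.P032.Check

/-- Truth of a literal. -/
def Sat (σ : Nat → Prop) (l : Nat) : Prop := if l % 2 = 0 then σ (l / 2) else ¬ σ (l / 2)

/-- Truth of a clause. -/
def SatC (σ : Nat → Prop) (C : List Nat) : Prop := ∃ l ∈ C, Sat σ l

/-- The opposite literal. -/
def opp (l : Nat) : Nat := if l % 2 = 0 then l + 1 else l - 1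

lemma sat_opp {σ : Nat → Prop} {l : Nat} (h : Sat σ l) : ¬ Sat σ (opp l) := by
  rcases Nat.mod_two_eq_zero_or_one l with h2 | h2
  · have e1 : (l + 1) % 2 = 1 := by omega
    have e2 : (l + 1) / 2 = l / 2 := by omega
    simp_all [Sat, opp]
  · have e1 : (l - 1) % 2 = 0 := by omega
    have e2 : (l - 1) / 2 = l / 2 := by omega
    simp_all [Sat, opp]

/-- A store of clauses indexed by natural numbers. -/
inductive Db : Type where
  | nil : Db
  | node (v : Option (List Nat)) (a b : Db) : Db

/-- Look up a clause. -/
def Db.get : Db → Nat → Option (List Nat)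
  | .nil, _ => none
  | .node v a b, n => if n = 0 then v else if n % 2 = 1 then a.get ((n - 1) / 2) else b.get ((n - 1) / 2)

/-- Store a clause. -/
def Db.put : Nat → Db → Nat → List Nat → Db
  | 0, t, _, _ => t
  | f + 1, .nil, n, C =>
    if n = 0 then .node (some C) .nil .nil
    else if n % 2 = 1 then .node none (Db.put f .nil ((n - 1) / 2) C) .nil
    else .node none .nil (Db.put f .nil ((n - 1) / 2) C)
  | f + 1, .node v a b, n, C =>
    if n = 0 then .node (some C) a b
    else if n % 2 = 1 then .node v (Db.put f a ((n - 1) / 2) C) b
    else .node v a (Db.put f b ((n - 1) / 2) C)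

/-- All stored clauses are true. -/
def Good (σ : Nat → Prop) : Db → Prop
  | .nil => True
  | .node v a b => (∀ C, v = some C → SatC σ C) ∧ Good σ a ∧ Good σ b

lemma Good.get {σ : Nat → Prop} : ∀ {d : Db}, Good σ d → ∀ {n C}, d.get n = some C → SatC σ C
  | .nil, _, _, _, h => by simp [Db.get] at h
  | .node v a b, ⟨hv, ha, hb⟩, n, C, h => by
    simp only [Db.get] at h
    split at h
    · exact hv C h
    split at h
    · exact Good.get ha h
    · exact Good.get hb h

lemma Good.put {σ : Nat → Prop} {C : List Nat} (hC : SatC σ C) :
    ∀ (f : Nat) (d : Db) (n : Nat), Good σ d → Good σ (Db.put f d n C)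
  | 0, _, _, h => by simpa [Db.put] using h
  | f + 1, .nil, n, _ => by
    simp only [Db.put]
    split <;> [skip; split]
    · exact ⟨by simp [hC], trivial, trivial⟩
    · exact ⟨by simp, Good.put hC f .nil _ trivial, trivial⟩
    · exact ⟨by simp, trivial, Good.put hC f .nil _ trivial⟩
  | f + 1, .node v a b, n, ⟨hv, ha, hb⟩ => by
    simp only [Db.put]
    split <;> [skip; split]
    · exact ⟨by simp [hC], ha, hb⟩
    · exact ⟨hv, Good.put hC f a _ ha, hb⟩
    · exact ⟨hv, ha, Good.put hC f b _ hb⟩

/-- The mask of the literals of a clause, added to `F`. -/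
def mask : Nat → List Nat → Nat
  | F, [] => F
  | F, l :: r => mask (F ||| 1 <<< l) r

/-- Unit propagation along hints, starting from the false literals `F`. -/
def rup (d : Nat → Option (List Nat)) : Nat → List Nat → Bool
  | _, [] => false
  | F, h :: H =>
    match d h with
    | none => false
    | some D =>
      match D.filter (fun l => !F.testBit l) with
      | [] => true
      | l :: r => r.all (fun m => m == l) && rup d (F ||| 1 <<< opp l) H

lemma testBit_or_shift {F l m : Nat} :
    (F ||| 1 <<< l).testBit m = true ↔ F.testBit m = true ∨ l = m := by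
  simp [Nat.testBit_or, Nat.shiftLeft_eq, Nat.testBit_two_pow]

lemma mask_spec : ∀ (C : List Nat) (F m : Nat),
    (mask F C).testBit m = true → F.testBit m = true ∨ m ∈ C
  | [], _, _, h => Or.inl h
  | l :: r, F, m, h => by
    rcases mask_spec r _ m h with h | h
    · rcases testBit_or_shift.1 h with h | h
      · exact Or.inl h
      · exact Or.inr (h ▸ List.mem_cons_self)
    · exact Or.inr (List.mem_cons_of_mem _ h)

lemma rup_sound {σ : Nat → Prop} {d : Nat → Option (List Nat)}
    (hd : ∀ n C, d n = some C → SatC σ C) : ∀ (H : List Nat) (F : Nat),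
    (∀ m, F.testBit m = true → ¬ Sat σ m) → rup d F H = true → False
  | [], _, _, h => by simp [rup] at h
  | h :: H, F, hF, hr => by
    simp only [rup] at hr
    split at hr
    · simp at hr
    next D hD =>
      obtain ⟨m, hm, hs⟩ := hd _ _ hD
      have hm' : m ∈ D.filter (fun l => !F.testBit l) := by
        rw [List.mem_filter]
        exact ⟨hm, by simpa using fun hb => hF m hb hs⟩
      split at hr
      next e => simp [e] at hm'
      next l r e =>
        rw [Bool.and_eq_true] at hr
        rw [e, List.mem_cons] at hm'
        have hml : m = l := by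
          rcases hm' with hm' | hm'
          · exact hm'
          · simpa using List.all_eq_true.1 hr.1 m hm'
        subst hml
        refine rup_sound hd H _ (fun k hk => ?_) hr.2
        rcases testBit_or_shift.1 hk with hk | rfl
        · exact hF k hk
        · exact sat_opp hs

/-- The learned clause follows. -/
lemma learn_sound {σ : Nat → Prop} {d : Nat → Option (List Nat)}
    (hd : ∀ n C, d n = some C → SatC σ C) {C H : List Nat}
    (h : rup d (mask 0 C) H = true) : SatC σ C := by
  by_contra hC
  refine rup_sound hd H _ (fun m hm hs => hC ?_) h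
  rcases mask_spec C 0 m hm with hm | hm
  · simp at hm
  · exact ⟨m, hm, hs⟩

/-- The base for packed steps. -/
def base : Nat := 8192

/-- Unpack a list of numbers, up to the first zero digit. -/
def digits : Nat → Nat → List Nat × Nat
  | 0, n => ([], n)
  | f + 1, n =>
    if n % base = 0 then ([], n / base)
    else let r := digits f (n / base); ((n % base - 1) :: r.1, r.2)

/-- Unpack a step into a clause and its hints. -/
def unpack (n : Nat) : List Nat × List Nat :=
  let r := digits 4000 n
  (r.1, (digits 4000 r.2).1)

/-- Store packed clauses. -/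
def load : List Nat → Db → Nat → Db
  | [], d, _ => d
  | a :: r, d, n => load r (Db.put 24 d n (unpack a).1) (n + 1)

lemma load_sound {σ : Nat → Prop} : ∀ (L : List Nat) (d : Db) (n : Nat),
    (∀ a ∈ L, SatC σ (unpack a).1) → Good σ d → Good σ (load L d n)
  | [], _, _, _, hd => hd
  | a :: r, _, _, hA, hd =>
    load_sound r _ _ (fun b hb => hA b (List.mem_cons_of_mem _ hb))
      (hd.put (hA a List.mem_cons_self) _ _ _)

/-- The block size. -/
def blockSize : Nat := 250

/-- Look up a clause among earlier blocks and the current one. -/
def find (old : List Db) (start : Nat) (cur : Db) (h : Nat) : Option (List Nat) :=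
  if h < start then
    match old[h / blockSize]? with
    | some d => d.get (h % blockSize)
    | none => none
  else cur.get (h - start)

lemma find_sound {σ : Nat → Prop} {old : List Db} {start : Nat} {cur : Db}
    (ho : ∀ d ∈ old, Good σ d) (hc : Good σ cur) :
    ∀ n C, find old start cur n = some C → SatC σ C := by
  intro n C h
  simp only [find] at h
  split at h
  · split at h
    next d hd => exact (ho d (List.mem_of_getElem? hd)).get h
    next => simp at h
  · exact hc.get h

/-- Run consecutive steps. -/
def run (old : List Db) (start : Nat) : Db → Nat → List Nat → Bool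
  | _, _, [] => true
  | d, n, s :: r =>
    let p := unpack s
    rup (find old start d) (mask 0 p.1) p.2 && run old start (Db.put 24 d n p.1) (n + 1) r

lemma run_sound {σ : Nat → Prop} {old : List Db} (ho : ∀ d ∈ old, Good σ d) (start : Nat) :
    ∀ (S : List Nat) (d : Db) (n : Nat),
    Good σ d → run old start d n S = true → ∀ s ∈ S, SatC σ (unpack s).1
  | [], _, _, _, _ => by simp
  | s :: r, d, n, hd, h => by
    simp only [run, Bool.and_eq_true] at h
    have hC := learn_sound (find_sound ho hd) h.1
    intro t ht
    rcases List.mem_cons.1 ht with rfl | ht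
    · exact hC
    · exact run_sound ho start r _ _ (hd.put hC _ _ _) h.2 t ht

/-- A block of steps follows from the earlier blocks. -/
def segment (pre : List (List Nat)) (start : Nat) (seg : List Nat) : Bool :=
  run (pre.map fun L => load L .nil 0) start .nil 0 seg

/-- Every clause of every block is true. -/
def AllSat (σ : Nat → Prop) (pre : List (List Nat)) : Prop :=
  ∀ L ∈ pre, ∀ a ∈ L, SatC σ (unpack a).1

lemma segment_sound {σ : Nat → Prop} {pre : List (List Nat)} {start : Nat} {seg : List Nat}
    (hp : AllSat σ pre) (h : segment pre start seg = true) : AllSat σ (pre ++ [seg]) := by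
  intro L hL
  rcases List.mem_append.1 hL with hL | hL
  · exact hp L hL
  · rw [List.mem_singleton] at hL
    subst hL
    refine run_sound ?_ start _ _ _ (show Good σ .nil from trivial) h
    intro d hd
    obtain ⟨L', hL', rfl⟩ := List.mem_map.1 hd
    exact load_sound L' _ _ (hp L' hL') (show Good σ .nil from trivial)

lemma empty_false {σ : Nat → Prop} {pre : List (List Nat)} {L : List Nat} (hp : AllSat σ pre)
    (hL : L ∈ pre) (h : L.any (fun a => (unpack a).1.isEmpty) = true) : False := by
  simp only [List.any_eq_true, List.isEmpty_iff] at h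
  obtain ⟨a, ha, he⟩ := h
  obtain ⟨l, hl, -⟩ := hp L hL a ha
  simp [he] at hl

/-- The original variable of a renamed one. -/
def look (t : Db) (v : Nat) : Nat :=
  match t.get v with
  | some (w :: _) => w
  | _ => 0

/-- The original literal of a renamed one. -/
def orig (t : Db) (l : Nat) : Nat := 2 * look t (l / 2) + l % 2

/-- The renaming table. -/
def mkTable : List Nat → Db → Nat → Db
  | [], d, _ => d
  | a :: r, d, n => mkTable r (Db.put 24 d n [a]) (n + 1)

/-- Each renamed clause follows from its constraint. -/
def axioms (ok : Nat → Bool) (cl : Nat → List Nat) (t : Db) : List Nat → List Nat → Bool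
  | [], [] => true
  | a :: A, C :: Cs =>
    let D := (unpack C).1
    ok a && (cl a).all (fun l => D.any (fun m => orig t m == l)) && axioms ok cl t A Cs
  | _, _ => false

lemma axioms_sound {σ : Nat → Prop} {ok : Nat → Bool} {cl : Nat → List Nat} {t : Db}
    (hok : ∀ a, ok a = true → SatC σ (cl a)) : ∀ (A Cs : List Nat), axioms ok cl t A Cs = true →
    ∀ C ∈ Cs, SatC (fun v => σ (look t v)) (unpack C).1
  | [], [], _ => by simp
  | [], _ :: _, h => by simp [axioms] at h
  | _ :: _, [], h => by simp [axioms] at h
  | a :: A, C :: Cs, h => by
    simp only [axioms, Bool.and_eq_true, List.all_eq_true, List.any_eq_true, beq_iff_eq] at h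
    intro D hD
    rcases List.mem_cons.1 hD with rfl | hD
    · obtain ⟨l, hl, hs⟩ := hok a h.1.1
      obtain ⟨m, hm, rfl⟩ := h.1.2 l hl
      refine ⟨m, hm, ?_⟩
      have e1 : orig t m % 2 = m % 2 := by simp only [orig]; omega
      have e2 : orig t m / 2 = look t (m / 2) := by simp only [orig]; omega
      simpa [Sat, e1, e2] using hs
    · exact axioms_sound hok A Cs h.2 D hD

end Vale.Agent.P032.Check
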