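import Vale.Agent.P032.Lattice
import Vale.Agent.P032.CertFive

/-!
Kernel checks of the certificate for a point with five colours.
-/

namespace Vale.Agent.P032.CertFive

open Check Lattice

/-- The renaming. -/
noncomputable def table : Db := mkTable vars.flatten .nil 0

theorem ax0 : axioms (fun n => good keys (decode n)) (fun n => clause 5 0 (decode n))
    table constraints0 clauses0 = true := by decide +kernel

theorem ax1 : axioms (fun n => good keys (decode n)) (fun n => clause 5 0 (decode n))
    table constraints1 clauses1 = true := by decide +kernel

theorem ax2 : axioms (fun n => good keys (decode n)) (fun n => clause 5 0 (decode n))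
    table constraints2 clauses2 = true := by decide +kernel

theorem ax3 : axioms (fun n => good keys (decode n)) (fun n => clause 5 0 (decode n))
    table constraints3 clauses3 = true := by decide +kernel

theorem ax4 : axioms (fun n => good keys (decode n)) (fun n => clause 5 0 (decode n))
    table constraints4 clauses4 = true := by decide +kernel

theorem ax5 : axioms (fun n => good keys (decode n)) (fun n => clause 5 0 (decode n))
    table constraints5 clauses5 = true := by decide +kernel

theorem ax6 : axioms (fun n => good keys (decode n)) (fun n => clause 5 0 (decode n))
    table constraints6 clauses6 = true := by decide +kernel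

theorem ax7 : axioms (fun n => good keys (decode n)) (fun n => clause 5 0 (decode n))
    table constraints7 clauses7 = true := by decide +kernel

theorem ax8 : axioms (fun n => good keys (decode n)) (fun n => clause 5 0 (decode n))
    table constraints8 clauses8 = true := by decide +kernel

theorem seg0 : segment
    [clauses0, clauses1, clauses2, clauses3, clauses4, clauses5, clauses6, clauses7,
     clauses8]
    2250 steps0 = true := by decide +kernel

theorem seg1 : segment
    [clauses0, clauses1, clauses2, clauses3, clauses4, clauses5, clauses6, clauses7,
     clauses8, steps0]
    2500 steps1 = true := by decide +kernel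

theorem seg2 : segment
    [clauses0, clauses1, clauses2, clauses3, clauses4, clauses5, clauses6, clauses7,
     clauses8, steps0, steps1]
    2750 steps2 = true := by decide +kernel

theorem seg3 : segment
    [clauses0, clauses1, clauses2, clauses3, clauses4, clauses5, clauses6, clauses7,
     clauses8, steps0, steps1, steps2]
    3000 steps3 = true := by decide +kernel

theorem seg4 : segment
    [clauses0, clauses1, clauses2, clauses3, clauses4, clauses5, clauses6, clauses7,
     clauses8, steps0, steps1, steps2, steps3]
    3250 steps4 = true := by decide +kernel

theorem seg5 : segment
    [clauses0, clauses1, clauses2, clauses3, clauses4, clauses5, clauses6, clauses7,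
     clauses8, steps0, steps1, steps2, steps3, steps4]
    3500 steps5 = true := by decide +kernel

theorem seg6 : segment
    [clauses0, clauses1, clauses2, clauses3, clauses4, clauses5, clauses6, clauses7,
     clauses8, steps0, steps1, steps2, steps3, steps4, steps5]
    3750 steps6 = true := by decide +kernel

theorem seg7 : segment
    [clauses0, clauses1, clauses2, clauses3, clauses4, clauses5, clauses6, clauses7,
     clauses8, steps0, steps1, steps2, steps3, steps4, steps5, steps6]
    4000 steps7 = true := by decide +kernel

theorem seg8 : segment
    [clauses0, clauses1, clauses2, clauses3, clauses4, clauses5, clauses6, clauses7,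
     clauses8, steps0, steps1, steps2, steps3, steps4, steps5, steps6,
     steps7]
    4250 steps8 = true := by decide +kernel

theorem seg9 : segment
    [clauses0, clauses1, clauses2, clauses3, clauses4, clauses5, clauses6, clauses7,
     clauses8, steps0, steps1, steps2, steps3, steps4, steps5, steps6,
     steps7, steps8]
    4500 steps9 = true := by decide +kernel

theorem seg10 : segment
    [clauses0, clauses1, clauses2, clauses3, clauses4, clauses5, clauses6, clauses7,
     clauses8, steps0, steps1, steps2, steps3, steps4, steps5, steps6,
     steps7, steps8, steps9]
    4750 steps10 = true := by decide +kernel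

theorem seg11 : segment
    [clauses0, clauses1, clauses2, clauses3, clauses4, clauses5, clauses6, clauses7,
     clauses8, steps0, steps1, steps2, steps3, steps4, steps5, steps6,
     steps7, steps8, steps9, steps10]
    5000 steps11 = true := by decide +kernel

theorem seg12 : segment
    [clauses0, clauses1, clauses2, clauses3, clauses4, clauses5, clauses6, clauses7,
     clauses8, steps0, steps1, steps2, steps3, steps4, steps5, steps6,
     steps7, steps8, steps9, steps10, steps11]
    5250 steps12 = true := by decide +kernel

theorem seg13 : segment
    [clauses0, clauses1, clauses2, clauses3, clauses4, clauses5, clauses6, clauses7,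
     clauses8, steps0, steps1, steps2, steps3, steps4, steps5, steps6,
     steps7, steps8, steps9, steps10, steps11, steps12]
    5500 steps13 = true := by decide +kernel

theorem seg14 : segment
    [clauses0, clauses1, clauses2, clauses3, clauses4, clauses5, clauses6, clauses7,
     clauses8, steps0, steps1, steps2, steps3, steps4, steps5, steps6,
     steps7, steps8, steps9, steps10, steps11, steps12, steps13]
    5750 steps14 = true := by decide +kernel

theorem last_empty : steps14.any (fun a => (unpack a).1.isEmpty) = true := by decide +kernel

/-- The constraints are contradictory. -/
theorem refute (σ : ℕ → Prop)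
    (hok : ∀ n, good keys (decode n) = true → SatC σ (clause 5 0 (decode n))) : False := by
  have h0 : AllSat (fun v => σ (look table v))
      [clauses0, clauses1, clauses2, clauses3, clauses4, clauses5, clauses6, clauses7, clauses8] := by
    simp only [AllSat, List.mem_cons, List.not_mem_nil, or_false, forall_eq_or_imp, forall_eq]
    exact ⟨axioms_sound hok _ _ ax0,
      axioms_sound hok _ _ ax1,
      axioms_sound hok _ _ ax2,
      axioms_sound hok _ _ ax3,
      axioms_sound hok _ _ ax4,
      axioms_sound hok _ _ ax5,
      axioms_sound hok _ _ ax6,
      axioms_sound hok _ _ ax7,
      axioms_sound hok _ _ ax8⟩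
  have h1 := segment_sound h0 seg0
  have h2 := segment_sound h1 seg1
  have h3 := segment_sound h2 seg2
  have h4 := segment_sound h3 seg3
  have h5 := segment_sound h4 seg4
  have h6 := segment_sound h5 seg5
  have h7 := segment_sound h6 seg6
  have h8 := segment_sound h7 seg7
  have h9 := segment_sound h8 seg8
  have h10 := segment_sound h9 seg9
  have h11 := segment_sound h10 seg10
  have h12 := segment_sound h11 seg11
  have h13 := segment_sound h12 seg12
  have h14 := segment_sound h13 seg13
  have h15 := segment_sound h14 seg14
  exact empty_false h15 (List.mem_append_right _ (List.mem_singleton_self _)) last_empty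

end Vale.Agent.P032.CertFive
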