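import Vale.Agent.P032.Triple
import Mathlib.Data.ZMod.Basic
import Mathlib.Algebra.BigOperators.Group.Finset.Basic
import Mathlib.Topology.Separation.Regular

/-!
Some point of the plane has three colours, by Sperner's lemma.
-/

open Complex Set Filter Topology

namespace Vale.Agent.P032

/-- Edge weight for Sperner's lemma. -/
def edgeW (a b : Fin 3) : ZMod 2 := if (a = 0 ∧ b = 1) ∨ (a = 1 ∧ b = 0) then 1 else 0

lemma tri_zero : ∀ a b c : Fin 3, ¬ (a ≠ b ∧ b ≠ c ∧ a ≠ c) →
    edgeW a b + edgeW b c + edgeW c a = 0 := by decide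

lemma strip_step : ∀ B T L d v d' e b : ZMod 2, B + T + L + d = 0 → d + e + v = 0 →
    b + d' + v = 0 → (B + b) + (T + e) + L + d' = 0 := by decide

lemma edgeW_comm : ∀ a b : Fin 3, edgeW a b = edgeW b a := by decide

lemma edgeW_zero : ∀ a b c : Fin 3, a ≠ c → b ≠ c → c ≠ 2 → edgeW a b = 0 := by decide

/-- The discrete Sperner lemma on the triangular grid. -/
theorem sperner (N : ℕ) (l : ℕ → ℕ → Fin 3) (h2 : ∀ i, i ≤ N → l i 0 ≠ 2)
    (h1 : ∀ j, j ≤ N → l 0 j ≠ 1) (h0 : ∀ i j, i + j = N → l i j ≠ 0) :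
    ∃ i j, i + j < N ∧
      ((l i j ≠ l (i + 1) j ∧ l (i + 1) j ≠ l i (j + 1) ∧ l i j ≠ l i (j + 1)) ∨
        (i + j + 2 ≤ N ∧ l (i + 1) j ≠ l i (j + 1) ∧ l i (j + 1) ≠ l (i + 1) (j + 1) ∧
          l (i + 1) j ≠ l (i + 1) (j + 1))) := by
  by_contra hcon
  push Not at hcon
  have up : ∀ i j, i + j < N →
      edgeW (l i j) (l (i + 1) j) + edgeW (l (i + 1) j) (l i (j + 1))
        + edgeW (l i (j + 1)) (l i j) = 0 := by
    intro i j hij
    refine tri_zero _ _ _ fun hh => ?_
    exact (hcon i j hij).1 hh.1 hh.2.1 |> (fun e => hh.2.2 e)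
  have down : ∀ i j, i + j + 2 ≤ N →
      edgeW (l (i + 1) j) (l i (j + 1)) + edgeW (l i (j + 1)) (l (i + 1) (j + 1))
        + edgeW (l (i + 1) (j + 1)) (l (i + 1) j) = 0 := by
    intro i j hij
    refine tri_zero _ _ _ fun hh => ?_
    exact (hcon i j (by omega)).2 hij hh.1 hh.2.1 |> (fun e => hh.2.2 e)
  let S : ℕ → ℕ → ZMod 2 := fun j k => ∑ i ∈ Finset.range k, edgeW (l i j) (l (i + 1) j)
  have strip : ∀ j k, k + j < N →
      S j (k + 1) + S (j + 1) k + edgeW (l 0 (j + 1)) (l 0 j)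
        + edgeW (l (k + 1) j) (l k (j + 1)) = 0 := by
    intro j k
    induction k with
    | zero =>
      intro hk
      have := up 0 j (by omega)
      simp only [S, Finset.sum_range_succ, Finset.sum_range_zero, zero_add, add_zero]
      linear_combination this
    | succ k ih =>
      intro hk
      have i1 := ih (by omega)
      have i2 := down k j (by omega)
      have i3 := up (k + 1) j (by omega)
      rw [edgeW_comm (l (k + 1) (j + 1)) (l (k + 1) j)] at i2 i3
      have hres := strip_step _ _ _ _ _ _ _ _ i1 i2 i3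
      simpa [S, Finset.sum_range_succ] using hres
  have row : ∀ j, j ≤ N → S 0 N = S j (N - j) := by
    intro j
    induction j with
    | zero => intro; rfl
    | succ j ih =>
      intro hj
      have hs := strip j (N - (j + 1)) (by omega)
      have e1 : edgeW (l 0 (j + 1)) (l 0 j) = 0 :=
        edgeW_zero _ _ 1 (h1 _ hj) (h1 _ (by omega)) (by decide)
      have e2 : edgeW (l (N - (j + 1) + 1) j) (l (N - (j + 1)) (j + 1)) = 0 :=
        edgeW_zero _ _ 0 (h0 _ _ (by omega)) (h0 _ _ (by omega)) (by decide)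
      rw [e1, e2, add_zero, add_zero] at hs
      rw [ih (by omega), show N - j = N - (j + 1) + 1 by omega]
      have key : ∀ a b : ZMod 2, a + b = 0 → a = b := by decide
      exact key _ _ hs
  have hbot : ∀ k, k ≤ N → S 0 k = if l k 0 = 0 then 0 else 1 := by
    intro k
    induction k with
    | zero =>
      intro _
      have : ∀ a : Fin 3, a ≠ 1 → a ≠ 2 → a = 0 := by decide
      simp [S, this _ (h1 0 (Nat.zero_le _)) (h2 0 (Nat.zero_le _))]
    | succ k ih =>
      intro hk
      have key : ∀ a b : Fin 3, a ≠ 2 → b ≠ 2 →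
          ((if a = 0 then 0 else 1 : ZMod 2) + edgeW a b) = if b = 0 then 0 else 1 := by decide
      have hS : S 0 (k + 1) = S 0 k + edgeW (l k 0) (l (k + 1) 0) := Finset.sum_range_succ _ _
      rw [hS, ih (by omega)]
      exact key _ _ (h2 _ (by omega)) (h2 _ hk)
  have e1 := hbot N le_rfl
  rw [row N le_rfl, Nat.sub_self, if_neg (h0 N 0 (by simp))] at e1
  simp [S] at e1

variable {K : Fin 5 → Set ℂ}

/-- Uniform small blocks in a bounded piece of `K c`. -/
lemma Config.blocks (h : Config K) (c : Fin 5) (R : ℝ) :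
    ∃ δ > 0, ∃ B : ℂ → Set ℂ, ∀ x ∈ K c ∩ Metric.closedBall 0 R,
      x ∈ B x ∧ (∀ y ∈ B x, ‖y - x‖ ≤ 4) ∧
      ∀ y ∈ K c ∩ Metric.closedBall 0 R, ‖y - x‖ < δ → B y = B x := by
  classical
  set M := K c ∩ Metric.closedBall (0 : ℂ) R
  have hMc : IsCompact M := (isCompact_closedBall _ _).inter_left (h.closed c)
  have : CompactSpace M := isCompact_iff_compactSpace.1 hMc
  have hcl : ∀ x : M, ∃ U : Set M, IsClopen U ∧ x ∈ U ∧ U ⊆ Metric.ball x 2 := by
    intro x
    have hcomp : connectedComponent x ⊆ Metric.ball x 2 := by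
      intro y hy
      by_contra hyn
      rw [Metric.mem_ball, not_lt, Subtype.dist_eq, dist_eq_norm] at hyn
      exact h.no_cross (isConnected_connectedComponent.2.image Subtype.val
        continuous_subtype_val.continuousOn) (by rintro _ ⟨z, -, rfl⟩; exact z.2.1) x.2.1
        (mem_image_of_mem _ mem_connectedComponent) (mem_image_of_mem _ hy) (by simp)
        (by linarith)
    rw [connectedComponent_eq_iInter_isClopen] at hcomp
    obtain ⟨F, hF⟩ := (Metric.isOpen_ball (x := x) (ε := 2)).isClosed_compl.isCompact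
      |>.elim_finite_subfamily_closed (fun s : {s : Set M // IsClopen s ∧ x ∈ s} => s.1)
        (fun s => s.2.1.1) (by
          rw [← Set.disjoint_iff_inter_eq_empty, disjoint_compl_left_iff_subset]; exact hcomp)
    refine ⟨⋂ s ∈ F, s.1, isClopen_biInter_finset fun s _ => s.2.1,
      mem_iInter₂.2 fun s _ => s.2.2, ?_⟩
    rwa [← disjoint_compl_left_iff_subset, Set.disjoint_iff_inter_eq_empty]
  choose U hUc hxU hUball using hcl
  obtain ⟨F, hF⟩ := isCompact_univ.elim_finite_subcover U (fun x => (hUc x).2)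
    fun x _ => mem_iUnion.2 ⟨x, hxU x⟩
  let pat : M → Set M := fun x => {i | i ∈ F ∧ x ∈ U i}
  have hopen : ∀ x, IsOpen {y | pat y = pat x} := by
    intro x
    have : {y | pat y = pat x}
        = ⋂ i ∈ F, (if x ∈ U i then U i else (U i)ᶜ) := by
      ext y
      simp only [mem_ofPred_eq, mem_iInter]
      constructor
      · intro hy i hi
        have h' := Set.ext_iff.1 hy i
        simp only [pat, mem_ofPred_eq, hi, true_and] at h'
        split_ifs with hx
        · exact h'.2 hx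
        · exact fun hyi => hx (h'.1 hyi)
      · intro hy
        ext i
        simp only [pat, mem_ofPred_eq, and_congr_right_iff]
        intro hi
        have := hy i hi
        split_ifs at this with hx
        · exact ⟨fun _ => hx, fun _ => this⟩
        · exact ⟨fun h' => absurd h' this, fun h' => absurd h' hx⟩
    rw [this]
    refine isOpen_biInter_finset fun i _ => ?_
    split_ifs
    · exact (hUc i).2
    · exact (hUc i).1.isOpen_compl
  obtain ⟨δ, hδ, hleb⟩ := lebesgue_number_lemma_of_metric isCompact_univ hopen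
    fun y _ => mem_iUnion.2 ⟨y, rfl⟩
  refine ⟨δ, hδ, fun x => if hx : x ∈ M then Subtype.val '' {y | pat y = pat ⟨x, hx⟩} else ∅,
    fun x hx => ?_⟩
  simp only [dif_pos hx]
  refine ⟨⟨⟨x, hx⟩, rfl, rfl⟩, ?_, ?_⟩
  · rintro _ ⟨y, hy, rfl⟩
    obtain ⟨i, hiF, hxi⟩ := mem_iUnion₂.1 (hF (mem_univ (⟨x, hx⟩ : M)))
    have hyi : y ∈ U i :=
      ((Set.ext_iff.1 (show pat y = pat ⟨x, hx⟩ from hy) i).2 ⟨hiF, hxi⟩).2
    have d1 := hUball i hxi
    have d2 := hUball i hyi
    rw [Metric.mem_ball, Subtype.dist_eq] at d1 d2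
    rw [← dist_eq_norm]
    linarith [dist_triangle_right (y : ℂ) x (i : ℂ)]
  · intro y hy hd
    simp only [dif_pos hy]
    obtain ⟨i, hi⟩ := hleb ⟨x, hx⟩ (mem_univ _)
    have h1 : pat ⟨x, hx⟩ = pat i := hi (Metric.mem_ball_self hδ)
    have h2 : pat ⟨y, hy⟩ = pat i := hi (by rwa [Metric.mem_ball, Subtype.dist_eq, dist_eq_norm])
    rw [h2, h1]

/-- Some point has at least three colours. -/
theorem Config.exists_three (h : Config K) : ∃ x, 3 ≤ (col K x).card := by
  by_contra! hlt
  choose δ hδ B hB using fun c => h.blocks c 300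
  have hop : ∀ x : ℂ, IsOpen (interior {z | col K z ⊆ col K x}) := fun x => isOpen_interior
  obtain ⟨δ₀, hδ₀, hleb⟩ := lebesgue_number_lemma_of_metric
    (isCompact_closedBall (0 : ℂ) 300) hop fun x _ => mem_iUnion.2
      ⟨x, mem_interior_iff_mem_nhds.2 (h.eventually_col x)⟩
  obtain ⟨c₀, -, hc₀⟩ := Finset.exists_min_image (Finset.univ : Finset (Fin 5)) δ
    Finset.univ_nonempty
  set ε := min δ₀ (δ c₀)
  have hε : 0 < ε := lt_min hδ₀ (hδ c₀)
  obtain ⟨N, hN⟩ := exists_nat_gt (200 / ε)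
  have hNr : (0 : ℝ) < N := lt_trans (by positivity) hN
  set g := 100 / (N : ℝ)
  have hg0 : 0 < g := by positivity
  have hgN : g * N = 100 := div_mul_cancel₀ _ hNr.ne'
  have hg : 2 * g < ε := by
    have := (div_lt_iff₀ hε).1 hN
    nlinarith
  let pt : ℕ → ℕ → ℂ := fun i j => ((g * i : ℝ) : ℂ) + ((g * j : ℝ) : ℂ) * I
  have pre : ∀ i j, (pt i j).re = g * i ∧ (pt i j).im = g * j := by
    intro i j; simp [pt]
  have hbox : ∀ i j, i + j ≤ N → pt i j ∈ Metric.closedBall (0 : ℂ) 300 := by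
    intro i j hij
    have hij' : (i : ℝ) + j ≤ N := by exact_mod_cast hij
    rw [Metric.mem_closedBall, dist_zero_right]
    refine (Complex.norm_le_abs_re_add_abs_im _).trans ?_
    rw [(pre i j).1, (pre i j).2, abs_of_nonneg (by positivity), abs_of_nonneg (by positivity)]
    nlinarith
  choose cl hcl using fun z => h.cover z
  let blk : ℕ → ℕ → Set ℂ := fun i j => B (cl (pt i j)) (pt i j)
  classical
  let lab : ℕ → ℕ → Fin 3 := fun i j =>
    if ∀ q ∈ blk i j, q.im ≠ 0 then 2 else if ∀ q ∈ blk i j, q.re ≠ 0 then 1 else 0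
  have hin : ∀ i j, i + j ≤ N → pt i j ∈ blk i j ∧ ∀ q ∈ blk i j, ‖q - pt i j‖ ≤ 4 :=
    fun i j hij => ⟨(hB _ _ ⟨hcl _, hbox i j hij⟩).1, (hB _ _ ⟨hcl _, hbox i j hij⟩).2.1⟩
  obtain ⟨i, j, hij, htri⟩ := sperner N lab
    (fun i hi hl => by
      simp only [lab] at hl
      split_ifs at hl with q1 q2
      · exact q1 _ (hin i 0 (by omega)).1 (by simp [(pre i 0).2])
      all_goals exact absurd hl (by decide))
    (fun j hj hl => by
      simp only [lab] at hl
      split_ifs at hl with q1 q2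
      · exact absurd hl (by decide)
      · exact q2 _ (hin 0 j (by omega)).1 (by simp [(pre 0 j).1])
      · exact absurd hl (by decide))
    (fun i j hij hl => by
      simp only [lab] at hl
      split_ifs at hl with q1 q2
      · exact absurd hl (by decide)
      · exact absurd hl (by decide)
      · push Not at q1 q2
        obtain ⟨a, ha, ha0⟩ := q1
        obtain ⟨b, hb, hb0⟩ := q2
        have e1 := (Complex.abs_im_le_norm _).trans ((hin i j hij.le).2 a ha)
        have e2 := (Complex.abs_re_le_norm _).trans ((hin i j hij.le).2 b hb)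
        rw [Complex.sub_im, ha0, (pre i j).2] at e1
        rw [Complex.sub_re, hb0, (pre i j).1] at e2
        have hs : (i : ℝ) + j = N := by exact_mod_cast hij
        nlinarith [(abs_le.1 e1).1, (abs_le.1 e2).1])
  have key : ∀ i₁ j₁ i₂ j₂, i₁ + j₁ ≤ N → i₂ + j₂ ≤ N → ‖pt i₂ j₂ - pt i₁ j₁‖ < ε →
      lab i₁ j₁ ≠ lab i₂ j₂ → cl (pt i₁ j₁) ≠ cl (pt i₂ j₂) := by
    intro i₁ j₁ i₂ j₂ h1 h2 hd hl he
    apply hl
    have hsame : blk i₂ j₂ = blk i₁ j₁ := by
      simp only [blk]; rw [← he]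
      refine (hB _ _ ⟨hcl _, hbox _ _ h1⟩).2.2 _ ⟨he ▸ hcl _, hbox _ _ h2⟩ ?_
      exact lt_of_lt_of_le hd ((min_le_right _ _).trans (hc₀ _ (Finset.mem_univ _)))
    simp only [lab, hsame]
  have small : ∀ i₁ j₁ i₂ j₂ : ℕ, |(i₂ : ℝ) - i₁| ≤ 1 → |(j₂ : ℝ) - j₁| ≤ 1 →
      ‖pt i₂ j₂ - pt i₁ j₁‖ < ε := by
    intro i₁ j₁ i₂ j₂ h1 h2
    refine lt_of_le_of_lt (Complex.norm_le_abs_re_add_abs_im _) ?_
    rw [Complex.sub_re, Complex.sub_im, (pre _ _).1, (pre _ _).1, (pre _ _).2, (pre _ _).2,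
      ← mul_sub, ← mul_sub, abs_mul, abs_mul, abs_of_pos hg0]
    nlinarith
  have three : ∀ u v w : ℂ, u ∈ Metric.closedBall (0 : ℂ) 300 → ‖v - u‖ < ε → ‖w - u‖ < ε →
      cl u ≠ cl v → cl v ≠ cl w → cl u ≠ cl w → False := by
    intro u v w hu hv hw n1 n2 n3
    obtain ⟨z, hz⟩ := hleb u hu
    have hm : ∀ q, ‖q - u‖ < ε → cl q ∈ col K z := fun q hq =>
      interior_subset (hz (show q ∈ Metric.ball u δ₀ by
        rw [Metric.mem_ball, dist_eq_norm]; exact lt_of_lt_of_le hq (min_le_left _ _)))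
        (mem_col.2 (hcl q))
    have hsub : ({cl u, cl v, cl w} : Finset (Fin 5)) ⊆ col K z := by
      simp [Finset.insert_subset_iff, hm u (by simpa using hε), hm v hv, hm w hw]
    have h3 : ({cl u, cl v, cl w} : Finset (Fin 5)).card = 3 :=
      Finset.card_eq_three.2 ⟨_, _, _, n1, n3, n2, rfl⟩
    have := Finset.card_le_card hsub
    have := hlt z
    omega
  rcases htri with ⟨a1, a2, a3⟩ | ⟨hij2, a1, a2, a3⟩
  · exact three (pt i j) (pt (i + 1) j) (pt i (j + 1)) (hbox _ _ (by omega))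
      (small _ _ _ _ (by simp) (by simp)) (small _ _ _ _ (by simp) (by simp))
      (key _ _ _ _ (by omega) (by omega) (small _ _ _ _ (by simp) (by simp)) a1)
      (key _ _ _ _ (by omega) (by omega) (small _ _ _ _ (by simp) (by simp)) a2)
      (key _ _ _ _ (by omega) (by omega) (small _ _ _ _ (by simp) (by simp)) a3)
  · exact three (pt (i + 1) j) (pt i (j + 1)) (pt (i + 1) (j + 1)) (hbox _ _ (by omega))
      (small _ _ _ _ (by simp) (by simp)) (small _ _ _ _ (by simp) (by simp))
      (key _ _ _ _ (by omega) (by omega) (small _ _ _ _ (by simp) (by simp)) a1)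
      (key _ _ _ _ (by omega) (by omega) (small _ _ _ _ (by simp) (by simp)) a2)
      (key _ _ _ _ (by omega) (by omega) (small _ _ _ _ (by simp) (by simp)) a3)

end Vale.Agent.P032
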