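import Vale.Agent.P032.Basic
import Mathlib.Topology.Baire.CompleteMetrizable

/-!
Generic angles on a unit circle, two-coloured points, and the change lemma.
-/

open Complex Set Filter Topology

namespace Vale.Agent.P032

variable {K : Fin 5 → Set ℂ}

/-- Near angle `s` the colour set along the unit circle about `p` is constant. -/
def Gen (K : Fin 5 → Set ℂ) (p : ℂ) (s : ℝ) : Prop :=
  ∀ c, ∀ᶠ τ in 𝓝 s, (p + uv τ ∈ K c ↔ p + uv s ∈ K c)

lemma Gen.arc {p : ℂ} {s : ℝ} (hg : Gen K p s) {c : Fin 5} (hc : p + uv s ∈ K c) :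
    Arc K p s c :=
  (hg c).mono fun _ hτ => hτ.2 hc

lemma Gen.nearby {p : ℂ} {s : ℝ} (hg : Gen K p s) :
    ∀ᶠ τ in 𝓝 s, Gen K p τ ∧ ∀ c, (p + uv τ ∈ K c ↔ p + uv s ∈ K c) := by
  filter_upwards [(eventually_all.2 hg).eventually_nhds] with τ hτ
  refine ⟨fun c => ?_, hτ.self_of_nhds⟩
  filter_upwards [hτ] with u hu
  exact (hu c).trans (hτ.self_of_nhds c).symm

lemma isOpen_gen (K : Fin 5 → Set ℂ) (p : ℂ) : IsOpen {s | Gen K p s} :=
  isOpen_iff_eventually.2 fun _ hs => (Gen.nearby hs).mono fun _ h => h.1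

lemma Config.dense_gen (h : Config K) (p : ℂ) : Dense {s | Gen K p s} := by
  set S : Fin 5 → Set ℝ := fun c => (fun τ => p + uv τ) ⁻¹' K c
  have hS : ∀ c, IsClosed (S c) :=
    fun c => (h.closed c).preimage (by have := continuous_uv; fun_prop)
  have hd : Dense (⋂ c, (frontier (S c))ᶜ) :=
    dense_iInter_of_isOpen (fun c => isClosed_frontier.isOpen_compl)
      fun c => interior_eq_empty_iff_dense_compl.1 (interior_frontier (hS c))
  refine hd.mono fun s hs c => ?_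
  have hsc : s ∉ frontier (S c) := Set.mem_iInter.1 hs c
  rw [(hS c).frontier_eq, Set.mem_sdiff, not_and, not_not] at hsc
  by_cases hm : s ∈ S c
  · filter_upwards [mem_interior_iff_mem_nhds.1 (hsc hm)] with τ hτ
    exact ⟨fun _ => hm, fun _ => hτ⟩
  · filter_upwards [(hS c).isOpen_compl.mem_nhds hm] with τ hτ
    exact ⟨fun h' => absurd h' hτ, fun h' => absurd h' hm⟩

/-- Arcs: the finitely many circles `q j` are generic at `t + a j` for a dense open set of `t`. -/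
lemma Config.dense_gens (h : Config K) {ι : Type*} [Finite ι] (q : ι → ℂ) (a : ι → ℝ) :
    IsOpen {t | ∀ j, Gen K (q j) (t + a j)} ∧ Dense {t | ∀ j, Gen K (q j) (t + a j)} := by
  have he : {t : ℝ | ∀ j, Gen K (q j) (t + a j)}
      = ⋂ j, (fun t => t + a j) ⁻¹' {s | Gen K (q j) s} := by ext; simp
  have ho : ∀ j, IsOpen ((fun t => t + a j) ⁻¹' {s | Gen K (q j) s}) :=
    fun j => (isOpen_gen K _).preimage (by fun_prop)
  rw [he]
  have : Countable ι := Finite.to_countable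
  exact ⟨isOpen_iInter_of_finite ho, dense_iInter_of_isOpen ho
    fun j => (h.dense_gen _).preimage (Homeomorph.addRight (a j)).isOpenMap⟩

lemma Gen.rot (h : Config K) {p : ℂ} {s : ℝ} (hg : Gen K p s) {c : Fin 5}
    (hc : p + uv s ∈ K c) : p + uv (s + Real.pi / 3) ∉ K c := by
  intro hc'
  have hd : ‖p + uv s - (p + uv (s + Real.pi / 3))‖ = 1 := by
    have e : p + uv s - (p + uv (s + Real.pi / 3)) = uv s * (1 - uv (Real.pi / 3)) := by
      rw [uv_add]; ring
    rw [e, norm_mul, norm_uv, one_mul]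
    have : ‖1 - uv (Real.pi / 3)‖ ^ 2 = 1 := by
      simp only [Complex.sq_norm, Complex.normSq_apply, Complex.sub_re, Complex.sub_im, one_re,
        one_im, uv_re, uv_im, Real.cos_pi_div_three, Real.sin_pi_div_three]
      nlinarith [Real.mul_self_sqrt (show (0 : ℝ) ≤ 3 by norm_num)]
    exact (pow_eq_one_iff_of_nonneg (norm_nonneg _) two_ne_zero).1 this
  have h0 := h.cross (hg.arc hc) hc' hd
  rw [show p + uv (s + Real.pi / 3) - p = uv (s + Real.pi / 3) by ring, crs_uv,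
    show s + Real.pi / 3 - s = Real.pi / 3 by ring, Real.sin_pi_div_three] at h0
  have : (0 : ℝ) < Real.sqrt 3 := by positivity
  linarith

/-- A point of the unit circle about `p` having only one colour: it is not a colour of `p`. -/
lemma Config.single (h : Config K) {p w : ℂ} (hw : ‖w - p‖ = 1) {c : Fin 5}
    (hall : ∀ c', w ∈ K c' → c' = c) : p ∉ K c := by
  refine h.adj c w p (mem_interior_iff_mem_nhds.2 ?_) (by rwa [norm_sub_rev])
  filter_upwards [h.eventually_sub w] with z hz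
  obtain ⟨c', hc'⟩ := h.cover z
  rwa [← hall c' (hz c' hc')]

lemma step_norm (l : ℝ) (hl : |l| ≤ 1) :
    ‖((Real.sqrt (1 - l ^ 2 / 4) : ℝ) : ℂ) + (l / 2 : ℝ) * I‖ = 1 ∧
    ‖((Real.sqrt (1 - l ^ 2 / 4) : ℝ) : ℂ) + (l / 2 : ℝ) * I - 1‖ ≤ |l| := by
  have h2 : l ^ 2 ≤ 1 := by rw [← sq_abs]; nlinarith [abs_nonneg l]
  have hsq := Real.sq_sqrt (show (0 : ℝ) ≤ 1 - l ^ 2 / 4 by linarith)
  have h0 := Real.sqrt_nonneg (1 - l ^ 2 / 4)
  have h1 : Real.sqrt (1 - l ^ 2 / 4) ≤ 1 := Real.sqrt_le_one.2 (by nlinarith)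
  set r := Real.sqrt (1 - l ^ 2 / 4)
  constructor
  · rw [← pow_eq_one_iff_of_nonneg (norm_nonneg _) two_ne_zero, Complex.sq_norm,
      Complex.normSq_add_mul_I]
    nlinarith
  · apply le_of_pow_le_pow_left₀ two_ne_zero (abs_nonneg l)
    rw [sq_abs, Complex.sq_norm, show ((r : ℝ) : ℂ) + (l / 2 : ℝ) * I - 1
      = ((r - 1 : ℝ) : ℂ) + (l / 2 : ℝ) * I by push_cast; ring, Complex.normSq_add_mul_I]
    nlinarith [mul_nonneg h0 (sub_nonneg.2 h1)]

/-- Two two-coloured neighbourhoods with the same pair are never at unit distance. -/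
lemma Config.two_col (h : Config K) {x y : ℂ} {a b : Fin 5} (hab : a ≠ b) (hxy : ‖y - x‖ = 1)
    (hx : ∀ᶠ z in 𝓝 x, ∀ c, z ∈ K c → c = a ∨ c = b)
    (hy : ∀ᶠ z in 𝓝 y, ∀ c, z ∈ K c → c = a ∨ c = b) (hxa : x ∈ K a) (hxb : x ∈ K b) :
    False := by
  obtain ⟨r₁, hr₁, hX⟩ := Metric.eventually_nhds_iff.1 hx
  obtain ⟨r₂, hr₂, hY⟩ := Metric.eventually_nhds_iff.1 hy
  set r := min (min r₁ r₂) 1
  have hr : 0 < r := lt_min (lt_min hr₁ hr₂) one_pos
  have hrX : r ≤ r₁ := (min_le_left _ _).trans (min_le_left _ _)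
  have hrY : r ≤ r₂ := (min_le_left _ _).trans (min_le_right _ _)
  set v := y - x
  -- one step keeps the interior colour `a`
  have step : ∀ z v₁ v₂ : ℂ, z ∈ interior (K a) → ‖v₁‖ = 1 → ‖v₂‖ = 1 → ‖z - x‖ < r / 4 →
      ‖v₁ - v‖ < r / 4 → ‖v₂ - v‖ < r / 4 → z + v₁ - v₂ ∈ interior (K a) := by
    intro z v₁ v₂ hz h1 h2 hzx hv1 hv2
    have e1 : ‖z + v₁ - y‖ < r / 2 := by
      rw [show z + v₁ - y = (z - x) + (v₁ - v) by simp only [v]; ring]
      linarith [norm_add_le (z - x) (v₁ - v)]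
    have na : z + v₁ ∉ K a := h.adj a z _ hz (by simpa using h1)
    have hb : z + v₁ ∈ interior (K b) := by
      refine mem_interior_iff_mem_nhds.2 ?_
      filter_upwards [(h.closed a).isOpen_compl.mem_nhds na,
        Metric.ball_mem_nhds (z + v₁) (show 0 < r / 2 by positivity)] with q hq hball
      obtain ⟨c, hc⟩ := h.cover q
      have hd : dist q y < r₂ := by
        rw [Metric.mem_ball] at hball
        have := dist_triangle q (z + v₁) y
        rw [dist_eq_norm (z + v₁) y] at this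
        linarith
      rcases hY hd c hc with rfl | rfl
      · exact absurd hc hq
      · exact hc
    have e2 : ‖z + v₁ - v₂ - x‖ < 3 * r / 4 := by
      rw [show z + v₁ - v₂ - x = (z - x) + (v₁ - v) - (v₂ - v) by ring]
      linarith [norm_sub_le ((z - x) + (v₁ - v)) (v₂ - v), norm_add_le (z - x) (v₁ - v)]
    have nb : z + v₁ - v₂ ∉ K b := h.adj b _ _ hb (by simpa using h2)
    refine mem_interior_iff_mem_nhds.2 ?_
    filter_upwards [(h.closed b).isOpen_compl.mem_nhds nb,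
      Metric.ball_mem_nhds (z + v₁ - v₂) (show 0 < r / 4 by positivity)] with q hq hball
    obtain ⟨c, hc⟩ := h.cover q
    have hd : dist q x < r₁ := by
      rw [Metric.mem_ball] at hball
      have := dist_triangle q (z + v₁ - v₂) x
      rw [dist_eq_norm (z + v₁ - v₂) x] at this
      linarith
    rcases hX hd c hc with rfl | rfl
    · exact hc
    · exact absurd hc hq
  have hcont : ContinuousAt uv 0 := continuous_uv.continuousAt
  obtain ⟨φ₀, hφ₀, hφ⟩ := Metric.continuousAt_iff.1 hcont (r / 16) (by positivity)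
  set φ := min (φ₀ / 2) 1
  have hφpos : 0 < φ := lt_min (by positivity) one_pos
  have hφlt : φ < φ₀ := by have := min_le_left (φ₀ / 2) 1; linarith
  have hu0 : uv 0 = 1 := by simp [uv]
  have hwp : ‖uv φ - 1‖ < r / 16 := by
    have := hφ (x := φ) (by rwa [dist_zero_right, Real.norm_eq_abs, abs_of_pos hφpos])
    rwa [dist_eq_norm, hu0] at this
  have hwm : ‖uv (-φ) - 1‖ < r / 16 := by
    have := hφ (x := -φ) (by rwa [dist_zero_right, Real.norm_eq_abs, abs_neg, abs_of_pos hφpos])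
    rwa [dist_eq_norm, hu0] at this
  have hcs : 0 < Real.cos φ := Real.cos_pos_of_mem_Ioo
    ⟨by linarith [Real.pi_pos], by linarith [Real.pi_gt_three, min_le_right (φ₀ / 2) 1]⟩
  have hsn : 0 < Real.sin φ :=
    Real.sin_pos_of_pos_of_lt_pi hφpos (by linarith [Real.pi_gt_three, min_le_right (φ₀ / 2) 1])
  set M := 1 / Real.cos φ + 1 / Real.sin φ
  have hM : 0 < M := by positivity
  set ρ := min (r / 16) (r / (32 * M))
  have hρ : 0 < ρ := lt_min (by positivity) (by positivity)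
  have hρM : 2 * ρ * M ≤ r / 16 := by
    have h3 : ρ * (32 * M) ≤ r := (le_div_iff₀ (by positivity)).1 (min_le_right _ _)
    linarith
  obtain ⟨a', ha', hda⟩ := Metric.mem_closure_iff.1 (h.reg a hxa) ρ hρ
  obtain ⟨b', hb', hdb⟩ := Metric.mem_closure_iff.1 (h.reg b hxb) ρ hρ
  rw [dist_eq_norm, norm_sub_rev] at hda hdb
  set δ := (b' - a') / (I * v)
  have hv0 : v ≠ 0 := by intro hv; simp [hv] at hxy
  have hδ : ‖δ‖ < 2 * ρ := by
    rw [norm_div, norm_mul, norm_I, hxy, one_mul, div_one]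
    linarith [norm_sub_le_norm_sub_add_norm_sub b' x a', norm_sub_rev x a']
  set l₁ := (δ.re / Real.cos φ + δ.im / Real.sin φ) / 2
  set l₂ := (δ.re / Real.cos φ - δ.im / Real.sin φ) / 2
  have hre : |δ.re / Real.cos φ| ≤ 2 * ρ / Real.cos φ := by
    rw [abs_div, abs_of_pos hcs]; gcongr; linarith [Complex.abs_re_le_norm δ]
  have him : |δ.im / Real.sin φ| ≤ 2 * ρ / Real.sin φ := by
    rw [abs_div, abs_of_pos hsn]; gcongr; linarith [Complex.abs_im_le_norm δ]
  have hsum : 2 * ρ / Real.cos φ + 2 * ρ / Real.sin φ = 2 * ρ * M := by simp only [M]; ring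
  obtain ⟨re1, re2⟩ := abs_le.1 hre
  obtain ⟨im1, im2⟩ := abs_le.1 him
  have hl₁ : |l₁| ≤ r / 16 := by
    rw [abs_le]; constructor <;> simp only [l₁] <;> linarith
  have hl₂ : |l₂| ≤ r / 16 := by
    rw [abs_le]; constructor <;> simp only [l₂] <;> linarith
  have hrle : r ≤ 1 := min_le_right _ _
  -- the two chords
  set e₁ := fun σ : ℝ => v * uv φ * (((Real.sqrt (1 - (σ * l₁) ^ 2 / 4) : ℝ) : ℂ)
    + ((σ * l₁) / 2 : ℝ) * I)
  set e₂ := fun σ : ℝ => v * uv (-φ) * (((Real.sqrt (1 - (σ * l₂) ^ 2 / 4) : ℝ) : ℂ)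
    + ((σ * l₂) / 2 : ℝ) * I)
  have near : ∀ (w : ℂ) (l : ℝ), ‖w‖ = 1 → ‖w - 1‖ < r / 16 → |l| ≤ r / 16 →
      ‖v * w * (((Real.sqrt (1 - l ^ 2 / 4) : ℝ) : ℂ) + (l / 2 : ℝ) * I)‖ = 1 ∧
      ‖v * w * (((Real.sqrt (1 - l ^ 2 / 4) : ℝ) : ℂ) + (l / 2 : ℝ) * I) - v‖ < r / 4 := by
    intro w l hw hw1 hl
    obtain ⟨k1, k2⟩ := step_norm l (by linarith)
    set q := ((Real.sqrt (1 - l ^ 2 / 4) : ℝ) : ℂ) + (l / 2 : ℝ) * I
    refine ⟨by rw [norm_mul, norm_mul, hxy, hw, k1]; ring, ?_⟩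
    rw [show v * w * q - v = v * (w * (q - 1) + (w - 1)) by ring, norm_mul, hxy, one_mul]
    have := norm_add_le (w * (q - 1)) (w - 1)
    rw [norm_mul, hw, one_mul] at this
    linarith
  have n1 : ∀ σ : ℝ, |σ| = 1 → |σ * l₁| ≤ r / 16 := fun σ hσ => by rwa [abs_mul, hσ, one_mul]
  have n2 : ∀ σ : ℝ, |σ| = 1 → |σ * l₂| ≤ r / 16 := fun σ hσ => by rwa [abs_mul, hσ, one_mul]
  obtain ⟨p1, p2⟩ := near _ _ (norm_uv φ) hwp (n1 1 (by norm_num))
  obtain ⟨p3, p4⟩ := near _ _ (norm_uv φ) hwp (n1 (-1) (by norm_num))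
  obtain ⟨q1, q2⟩ := near _ _ (norm_uv (-φ)) hwm (n2 1 (by norm_num))
  obtain ⟨q3, q4⟩ := near _ _ (norm_uv (-φ)) hwm (n2 (-1) (by norm_num))
  have d1 : e₁ 1 - e₁ (-1) = (l₁ : ℂ) * I * v * uv φ := by
    simp only [e₁, one_mul, neg_mul, neg_sq]; push_cast; ring
  have d2 : e₂ 1 - e₂ (-1) = (l₂ : ℂ) * I * v * uv (-φ) := by
    simp only [e₂, one_mul, neg_mul, neg_sq]; push_cast; ring
  have hρr : ρ ≤ r / 16 := min_le_left _ _
  have s1 := step a' (e₁ 1) (e₁ (-1)) ha' p1 p3 (by linarith) p2 p4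
  have hz2 : ‖a' + e₁ 1 - e₁ (-1) - x‖ < r / 4 := by
    rw [show a' + e₁ 1 - e₁ (-1) - x = (a' - x) + (e₁ 1 - e₁ (-1)) by ring, d1]
    have h4 := norm_add_le (a' - x) ((l₁ : ℂ) * I * v * uv φ)
    rw [norm_mul, norm_mul, norm_mul, hxy, norm_uv, norm_I, Complex.norm_real,
      Real.norm_eq_abs] at h4
    linarith
  have s2 := step _ (e₂ 1) (e₂ (-1)) s1 q1 q3 hz2 q2 q4
  have key : (l₁ : ℂ) * uv φ + (l₂ : ℂ) * uv (-φ) = δ := by
    apply Complex.ext <;>
      simp only [l₁, l₂, Complex.add_re, Complex.add_im, Complex.mul_re, Complex.mul_im,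
        Complex.ofReal_re, Complex.ofReal_im, uv_re, uv_im, Real.cos_neg, Real.sin_neg] <;>
      field_simp <;> ring
  have hend : a' + e₁ 1 - e₁ (-1) + e₂ 1 - e₂ (-1) = b' := by
    have hδm : δ * (I * v) = b' - a' := div_mul_cancel₀ _ (mul_ne_zero I_ne_zero hv0)
    linear_combination d1 + d2 + (I * v) * key + hδm
  rw [hend] at s2
  have hab' : b' + v ∉ K a := h.adj a b' _ s2 (by simpa using hxy)
  have hbb' : b' + v ∉ K b := h.adj b b' _ hb' (by simpa using hxy)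
  obtain ⟨c, hc⟩ := h.cover (b' + v)
  have hd : dist (b' + v) y < r₂ := by
    rw [dist_eq_norm, show b' + v - y = b' - x by simp only [v]; ring]; linarith
  rcases hY hd c hc with rfl | rfl
  · exact hab' hc
  · exact hbb' hc

/-- A colour property that is neither always nor never true changes at some angle. -/
lemma Config.change (h : Config K) (p : ℂ) (f : ℝ → Prop) (h1 : ∃ s, Gen K p s ∧ f s)
    (h2 : ∃ s, Gen K p s ∧ ¬ f s) :
    ∃ θ, (∃ᶠ s in 𝓝 θ, Gen K p s ∧ f s) ∧ (∃ᶠ s in 𝓝 θ, Gen K p s ∧ ¬ f s) := by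
  set A := {s | Gen K p s ∧ f s}
  set B := {s | Gen K p s ∧ ¬ f s}
  have hu : (univ : Set ℝ) ⊆ closure A ∪ closure B := by
    rw [← closure_union]
    have : {s | Gen K p s} ⊆ A ∪ B := fun s hs => by
      by_cases hf : f s
      · exact Or.inl ⟨hs, hf⟩
      · exact Or.inr ⟨hs, hf⟩
    intro s _
    exact closure_mono this (h.dense_gen p s)
  obtain ⟨a, ha⟩ := h1
  obtain ⟨b, hb⟩ := h2
  obtain ⟨θ, -, hA, hB⟩ := isPreconnected_closed_iff.1 isPreconnected_univ (closure A) (closure B)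
    isClosed_closure isClosed_closure hu ⟨a, trivial, subset_closure ha⟩
    ⟨b, trivial, subset_closure hb⟩
  exact ⟨θ, mem_closure_iff_frequently.1 hA, mem_closure_iff_frequently.1 hB⟩

end Vale.Agent.P032
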