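import Vale.Agent.P032.ArcMeas
import Mathlib.MeasureTheory.Covering.Besicovitch
import Mathlib.MeasureTheory.Covering.BesicovitchVectorSpace
import Mathlib.MeasureTheory.Measure.OpenPos
import Mathlib.MeasureTheory.Group.Measure

/-!
For a colouring of the plane with measurable classes, every open set contains an open set on
which some colour is dense in measure and absent, in measure, from the surrounding unit shell.
-/

open Complex Set Filter Topology MeasureTheory Metric
open scoped ENNReal NNReal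

namespace Vale.Agent.P032

/-- Every point of `A` is a density point of `A`. -/
def Dens (A : Set ℂ) : Prop :=
  ∀ x ∈ A, Tendsto (fun r => volume (Aᶜ ∩ closedBall x r) / volume (closedBall x r))
    (𝓝[>] 0) (𝓝 0)

lemma exists_core {B : Set ℂ} (hB : NullMeasurableSet B volume) :
    ∃ A ⊆ B, MeasurableSet A ∧ Dens A ∧ volume (B \ A) = 0 := by
  obtain ⟨A₀, h0, hm, hae⟩ := hB.exists_measurable_subset_ae_eq
  have hd := Besicovitch.ae_tendsto_measure_inter_div_of_measurableSet
    (volume : Measure ℂ) hm.compl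
  rw [ae_iff] at hd
  obtain ⟨N, hN, hNm, hN0⟩ := exists_measurable_superset_of_null hd
  have hsdiff : volume (B \ A₀) = 0 := ae_le_set.1 hae.symm.le
  refine ⟨A₀ \ N, sdiff_subset.trans h0, hm.diff hNm, ?_, ?_⟩
  · intro x hx
    have h := of_not_not fun h' => hx.2 (hN h')
    rw [indicator_of_notMem (by simpa using hx.1)] at h
    refine h.congr fun r => ?_
    congr 1
    apply measure_congr
    refine EventuallyEq.inter ?_ EventuallyEq.rfl
    exact (sdiff_null_ae_eq_self hN0).compl.symm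
  · refine measure_mono_null (fun x hx => ?_) (measure_union_null hsdiff hN0)
    by_cases h : x ∈ A₀
    · exact Or.inr (by by_contra h'; exact hx.2 ⟨h, h'⟩)
    · exact Or.inl ⟨hx.1, h⟩

lemma Dens.small {A : Set ℂ} (hA : Dens A) {x : ℂ} (hx : x ∈ A) {η : ℝ} (hη : 0 < η) :
    ∀ᶠ w in 𝓝[>] (0 : ℝ), volume (Aᶜ ∩ closedBall x (3 * w)) ≤ ENNReal.ofReal (η * w ^ 2) := by
  have ht : Tendsto (fun w : ℝ => 3 * w) (𝓝[>] 0) (𝓝[>] 0) := by
    refine tendsto_nhdsWithin_iff.2 ⟨?_, ?_⟩
    · simpa using ((show Continuous fun w : ℝ => 3 * w by fun_prop).tendsto 0).mono_left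
        nhdsWithin_le_nhds
    · filter_upwards [self_mem_nhdsWithin] with w (hw : 0 < w)
      exact mul_pos three_pos hw
  have := ((hA x hx).comp ht).eventually
    (ge_mem_nhds (show (0 : ℝ≥0∞) < ENNReal.ofReal (η / (9 * Real.pi)) by simp; positivity))
  filter_upwards [this, self_mem_nhdsWithin] with w hw (hw0 : 0 < w)
  have hpos : volume (closedBall x (3 * w)) ≠ 0 :=
    (measure_closedBall_pos volume x (by positivity)).ne'
  have hfin : volume (closedBall x (3 * w)) ≠ ⊤ := (measure_closedBall_lt_top).ne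
  refine ((ENNReal.div_le_iff hpos hfin).1 hw).trans (le_of_eq ?_)
  rw [Complex.volume_closedBall, ← ENNReal.ofReal_pow (by positivity),
    show ((NNReal.pi : ℝ≥0) : ℝ≥0∞) = ENNReal.ofReal Real.pi by
      simp [ENNReal.ofReal, Real.toNNReal_of_nonneg Real.pi_pos.le]; rfl,
    ← ENNReal.ofReal_mul (by positivity), ← ENNReal.ofReal_mul (by positivity)]
  congr 1
  field_simp
  ring

/-- The unit shell about `W`. -/
def shell (W : Set ℂ) : Set ℂ := {y | ∃ z ∈ W, ‖y - z‖ = 1}

lemma shell_mono {W W' : Set ℂ} (h : W ⊆ W') : shell W ⊆ shell W' :=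
  fun _ ⟨z, hz, e⟩ => ⟨z, h hz, e⟩

/-- A disc that is good for the class `A`. -/
def GoodSet (A W : Set ℂ) : Prop :=
  IsOpen W ∧ W.Nonempty ∧ (∀ O ⊆ W, IsOpen O → O.Nonempty → volume (A ∩ O) ≠ 0) ∧
    volume (A ∩ shell W) = 0

/-- Points whose unit circle meets each chosen class in positive length. -/
def rich {n : ℕ} (A : Fin n → Set ℂ) (S : Finset (Fin n)) : Set ℂ :=
  {z | ∀ i ∈ S, sect (A i) z ≠ 0}

lemma measurableSet_rich {n : ℕ} {A : Fin n → Set ℂ} (hm : ∀ c, MeasurableSet (A c))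
    (S : Finset (Fin n)) : MeasurableSet (rich A S) := by
  have : rich A S = ⋂ i ∈ S, (sect (A i)) ⁻¹' {0}ᶜ := by ext z; simp [rich]
  rw [this]
  exact S.measurableSet_biInter fun i _ =>
    measurable_sect (hm i) (measurableSet_singleton 0).compl

lemma two_angles {A : Set ℂ} {z : ℂ} (h : sect A z ≠ 0) :
    ∃ a b : ℝ, z + uv a ∈ A ∧ z + uv b ∈ A ∧ Real.sin (a - b) ≠ 0 := by
  obtain ⟨a, ha⟩ := nonempty_of_measure_ne_zero h
  have hc : ({b : ℝ | Real.sin (a - b) = 0}).Countable := by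
    refine (countable_range fun m : ℤ => a - m * Real.pi).mono fun b hb => ?_
    obtain ⟨m, hm⟩ := Real.sin_eq_zero_iff.1 hb
    exact ⟨m, by simp only; linarith⟩
  have : volume ({θ : ℝ | z + uv θ ∈ A} \ {b : ℝ | Real.sin (a - b) = 0}) ≠ 0 := by
    rw [measure_sdiff_null (hc.measure_zero _)]; exact h
  obtain ⟨b, hb1, hb2⟩ := nonempty_of_measure_ne_zero this
  exact ⟨a, b, ha, hb1, hb2⟩

lemma transversal_bound {a b : ℝ} (h : Real.sin (a - b) ≠ 0) :
    ∃ τ > 0, ∀ β ∈ Icc (-Real.pi) Real.pi,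
      τ ≤ 1 - |Real.cos (β - a)| ∨ τ ≤ 1 - |Real.cos (β - b)| := by
  set g := fun β => max (1 - |Real.cos (β - a)|) (1 - |Real.cos (β - b)|) with hg
  obtain ⟨β₀, -, hmin⟩ := isCompact_Icc.exists_isMinOn
    (nonempty_Icc.2 (by linarith [Real.pi_pos] : -Real.pi ≤ Real.pi))
    (show Continuous g by fun_prop).continuousOn
  refine ⟨g β₀, ?_, fun β hβ => le_max_iff.1 (hmin hβ)⟩
  by_contra hle
  obtain ⟨ha, hb⟩ := max_le_iff.1 (not_lt.1 hle)
  have key : ∀ x, 1 - |Real.cos x| ≤ 0 → Real.sin x = 0 := fun x hx => by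
    nlinarith [Real.sin_sq_add_cos_sq x, sq_abs (Real.cos x), Real.abs_cos_le_one x,
      sq_nonneg (Real.sin x)]
  refine h ?_
  rw [show a - b = (β₀ - b) - (β₀ - a) by ring, Real.sin_sub, key _ ha, key _ hb]
  ring

/-- One more colour can be added. -/
lemma rich_step {n : ℕ} {A : Fin n → Set ℂ} (hm : ∀ c, MeasurableSet (A c))
    (hd : ∀ c, Dens (A c)) {S : Finset (Fin n)} {c : Fin n} {W : Set ℂ}
    (hS : ∀ V ⊆ W, IsOpen V → V.Nonempty → volume (rich A S ∩ V) ≠ 0)
    (hc : ∀ D ⊆ W, IsOpen D → D.Nonempty → volume (A c ∩ shell D) ≠ 0) :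
    ∀ V ⊆ W, IsOpen V → V.Nonempty → volume (rich A (insert c S) ∩ V) ≠ 0 := by
  intro V hVW hV hVne
  obtain ⟨z₀, hz₀, hz₀V⟩ := nonempty_of_measure_ne_zero (hS V hVW hV hVne)
  have hab := fun i : S => two_angles (hz₀ i i.2)
  choose a b ha hb hsin using hab
  have hτ' := fun i : S => transversal_bound (hsin i)
  choose τ hτ hcos using hτ'
  set N : ℝ := (S.card : ℝ) + 1 with hN
  have hN0 : 0 < N := by positivity
  have hev : ∀ᶠ w in 𝓝[>] (0 : ℝ), closedBall z₀ (2 * w) ⊆ V ∧ ∀ i : S, 4 * w ≤ τ i ∧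
      ∀ θ, θ = a i ∨ θ = b i → volume ((A i)ᶜ ∩ closedBall (z₀ + uv θ) (3 * w))
        ≤ ENNReal.ofReal (τ i ^ 2 / (2 * N) * w ^ 2) := by
    refine Filter.Eventually.and ?_ (eventually_all.2 fun i => ?_)
    · obtain ⟨δ, hδ, hδV⟩ := Metric.isOpen_iff.1 hV z₀ hz₀V
      filter_upwards [Ioo_mem_nhdsGT (half_pos hδ)] with w hw
      exact (closedBall_subset_ball (by linarith [hw.2])).trans hδV
    · have hη : 0 < τ i ^ 2 / (2 * N) := by have := hτ i; positivity
      filter_upwards [Ioo_mem_nhdsGT (show 0 < τ i / 4 by linarith [hτ i]),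
        (hd i).small (ha i) hη, (hd i).small (hb i) hη] with w hw h1 h2
      exact ⟨by linarith [hw.2], fun θ hθ => by rcases hθ with rfl | rfl <;> assumption⟩
  obtain ⟨w, ⟨hwV, hwi⟩, hw0⟩ := (hev.and (self_mem_nhdsWithin (a := (0 : ℝ)))).exists
  replace hw0 : 0 < w := hw0
  set D := ball z₀ w with hD
  have hDV : D ⊆ V := (ball_subset_closedBall.trans (closedBall_subset_closedBall (by linarith))).trans hwV
  have hT := hc D (hDV.trans hVW) isOpen_ball ⟨z₀, mem_ball_self hw0⟩
  set E := rich A S ∩ V with hE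
  have hEm : MeasurableSet E := (measurableSet_rich hm S).inter hV.measurableSet
  -- each circle about a point of the target meets `E` in positive length
  have hmeet : ∀ y ∈ A c ∩ shell D, volume {θ : ℝ | y - uv θ ∈ E} ≠ 0 := by
    rintro y ⟨-, z, hzD, hyz⟩
    set β := Complex.arg (y - z) with hβ
    have hu : uv β = y - z := by
      have := Complex.norm_mul_exp_arg_mul_I (y - z)
      rw [hyz, ofReal_one, one_mul] at this
      exact this
    have hbad : ∀ i : S, volume {s ∈ Icc (-w) w | sect (A i) (y - uv (s + β)) = 0}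
        ≤ ENNReal.ofReal (w / N) := by
      intro i
      have hβI : β ∈ Icc (-Real.pi) Real.pi :=
        ⟨(Complex.neg_pi_lt_arg _).le, Complex.arg_le_pi _⟩
      obtain ⟨θ, hθ, hcθ⟩ : ∃ θ, (θ = a i ∨ θ = b i) ∧ τ i ≤ 1 - |Real.cos (β - θ)| := by
        rcases hcos i β hβI with h | h
        exacts [⟨_, Or.inl rfl, h⟩, ⟨_, Or.inr rfl, h⟩]
      have key := arc_bad (hm i) hw0 (hwi i).1 hcθ (y := y) (y' := z₀ + uv θ) (by
        rw [hu, show y - (y - z) + uv θ - (z₀ + uv θ) = z - z₀ by ring]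
        exact (mem_ball_iff_norm.1 hzD).le)
      have hτi := hτ i
      have h2w : ENNReal.ofReal (2 * w) ≠ 0 := (ENNReal.ofReal_pos.2 (by linarith)).ne'
      refine (ENNReal.mul_le_mul_iff_left h2w ENNReal.ofReal_ne_top).1 ?_
      refine key.trans ((mul_le_mul_right ((hwi i).2 θ hθ) _).trans (le_of_eq ?_))
      rw [← ENNReal.ofReal_mul (by positivity), ← ENNReal.ofReal_mul (by positivity)]
      congr 1
      field_simp
    intro h0
    have hsub : Icc (-w) w ⊆ (fun s => s + β) ⁻¹' {θ : ℝ | y - uv θ ∈ E} ∪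
        ⋃ i : S, {s ∈ Icc (-w) w | sect (A i) (y - uv (s + β)) = 0} := by
      intro s hs
      by_cases h : ∃ i : S, sect (A i) (y - uv (s + β)) = 0
      · exact Or.inr (mem_iUnion.2 ⟨h.choose, hs, h.choose_spec⟩)
      · refine Or.inl ⟨fun i hi he => h ⟨⟨i, hi⟩, he⟩, hwV ?_⟩
        rw [mem_closedBall, dist_eq_norm, show y - uv (s + β) - z₀
          = -uv β * (uv s - 1) + (z - z₀) by rw [uv_add, hu]; ring]
        refine (norm_add_le _ _).trans ?_
        rw [norm_mul, norm_neg, norm_uv, one_mul]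
        linarith [(uv_sub_one_le s).trans (abs_le.2 hs), (mem_ball_iff_norm.1 hzD).le]
    have := (measure_mono (μ := (volume : Measure ℝ)) hsub).trans (measure_union_le _ _)
    rw [Real.volume_Icc, measure_preimage_add_right, h0, zero_add] at this
    have hle := this.trans ((measure_iUnion_fintype_le _ _).trans
      (Finset.sum_le_sum fun i _ => hbad i))
    rw [Finset.sum_const, Finset.card_univ, Fintype.card_coe, nsmul_eq_mul,
      ← ENNReal.ofReal_natCast, ← ENNReal.ofReal_mul (Nat.cast_nonneg _)] at hle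
    rw [ENNReal.ofReal_le_ofReal_iff (by positivity)] at hle
    have hlt : (S.card : ℝ) * (w / N) ≤ w := by
      rw [mul_div_assoc', div_le_iff₀ hN0, hN]; nlinarith
    linarith
  -- Fubini
  set X : Set (ℝ × ℂ) := {p | p.2 ∈ A c ∧ p.2 - uv p.1 ∈ E} with hX
  have hXm : MeasurableSet X :=
    ((hm c).preimage measurable_snd).inter
      (hEm.preimage (by have := continuous_uv; fun_prop))
  have hX0 : (volume : Measure ℝ).prod (volume : Measure ℂ) X ≠ 0 := by
    intro h0
    rw [Measure.prod_apply_symm hXm,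
      lintegral_eq_zero_iff (measurable_measure_prodMk_right hXm)] at h0
    refine hT (measure_mono_null (fun y hy => ?_) (ae_iff.1 h0))
    intro hz
    refine hmeet y hy (measure_mono_null (fun θ hθ => ?_) hz)
    exact ⟨hy.1, hθ⟩
  intro hnull
  have hF : MeasurePreserving (fun p : ℝ × ℂ => (p.1, p.2 + uv p.1))
      ((volume : Measure ℝ).prod (volume : Measure ℂ))
      ((volume : Measure ℝ).prod (volume : Measure ℂ)) :=
    (MeasurePreserving.id _).skew_product (g := fun θ z => z + uv θ)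
      (by have := continuous_uv; fun_prop)
      (ae_of_all _ fun θ => (measurePreserving_add_right volume (uv θ)).map_eq)
  refine hX0 ?_
  rw [← hF.measure_preimage hXm.nullMeasurableSet,
    Measure.prod_apply_symm (hXm.preimage hF.measurable),
    lintegral_eq_zero_iff (measurable_measure_prodMk_right (hXm.preimage hF.measurable))]
  have hae : ∀ᵐ z : ℂ, z ∉ rich A (insert c S) ∩ V := measure_eq_zero_iff_ae_notMem.1 hnull
  filter_upwards [hae] with z hz
  show volume _ = 0
  by_cases hzE : z ∈ E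
  · refine measure_mono_null (fun θ hθ => hθ.1) ?_
    by_contra hne
    refine hz ⟨fun i hi => ?_, hzE.2⟩
    rcases Finset.mem_insert.1 hi with rfl | hi
    · exact hne
    · exact hzE.1 i hi
  · convert measure_empty (μ := (volume : Measure ℝ))
    ext θ
    simpa [X] using fun _ => hzE

/-- Every open set contains a good set. -/
theorem exists_good {n : ℕ} {A : Fin n → Set ℂ} (f : ℂ → Fin n)
    (hf : ∀ x y, ‖y - x‖ = 1 → f x ≠ f y) (hm : ∀ c, MeasurableSet (A c))
    (hd : ∀ c, Dens (A c)) (hsub : ∀ c, A c ⊆ f ⁻¹' {c})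
    (hfull : ∀ c, volume (f ⁻¹' {c} \ A c) = 0) {W₀ : Set ℂ} (hW₀ : IsOpen W₀)
    (hne : W₀.Nonempty) : ∃ c W, W ⊆ W₀ ∧ GoodSet (A c) W := by
  classical
  let P : Set ℂ → Finset (Fin n) := fun W => {c | volume (A c ∩ W) ≠ 0}
  have hex : ∃ m W, W ⊆ W₀ ∧ IsOpen W ∧ W.Nonempty ∧ (P W).card = m :=
    ⟨_, W₀, subset_rfl, hW₀, hne, rfl⟩
  obtain ⟨W, hWW, hWo, hWne, hWc⟩ := Nat.find_spec hex
  have hdense : ∀ c ∈ P W, ∀ O ⊆ W, IsOpen O → O.Nonempty → volume (A c ∩ O) ≠ 0 := by
    intro c hc O hOW hO hOne h0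
    have hs : P O ⊆ P W := fun d hd => by
      simp only [P, Finset.mem_filter, Finset.mem_univ, true_and] at hd ⊢
      exact fun h => hd (measure_mono_null (inter_subset_inter_right _ hOW) h)
    have hlt : (P O).card < (P W).card :=
      Finset.card_lt_card ⟨hs, fun h => by simpa [P, h0] using h hc⟩
    exact Nat.find_min hex (hWc ▸ hlt) ⟨O, hOW.trans hWW, hO, hOne, rfl⟩
  by_contra hcon
  have hT : ∀ c ∈ P W, ∀ D ⊆ W, IsOpen D → D.Nonempty → volume (A c ∩ shell D) ≠ 0 :=
    fun c hc D hDW hD hDne h0 => hcon ⟨c, D, hDW.trans hWW, hD, hDne,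
      fun O hO => hdense c hc O (hO.trans hDW), h0⟩
  have hrich : ∀ S ⊆ P W, ∀ V ⊆ W, IsOpen V → V.Nonempty →
      volume (rich A S ∩ V) ≠ 0 := by
    intro S
    induction S using Finset.induction_on with
    | empty =>
      intro _ V _ hV hVne
      simpa [rich] using hV.measure_ne_zero volume hVne
    | insert c S _ ih =>
      intro hS
      exact rich_step hm hd (ih ((Finset.subset_insert c S).trans hS))
        (hT c (hS (Finset.mem_insert_self c S)))
  have hbad : volume {z ∈ W | f z ∉ P W} = 0 := by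
    refine measure_mono_null (t := ⋃ c, (f ⁻¹' {c} \ A c) ∪
      (if c ∈ P W then ∅ else A c ∩ W)) (fun z hz => ?_) (measure_iUnion_null fun c => ?_)
    · refine mem_iUnion.2 ⟨f z, ?_⟩
      by_cases h : z ∈ A (f z)
      · exact Or.inr (by rw [if_neg hz.2]; exact ⟨h, hz.1⟩)
      · exact Or.inl ⟨rfl, h⟩
    · refine measure_union_null (hfull c) ?_
      split_ifs with h
      · exact measure_empty
      · simpa [P] using h
  obtain ⟨z, hz, hzP⟩ := nonempty_of_measure_ne_zero
    (show volume ((rich A (P W) ∩ W) \ {z ∈ W | f z ∉ P W}) ≠ 0 by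
      rw [measure_sdiff_null hbad]; exact hrich _ subset_rfl W subset_rfl hWo hWne)
  have hfz : f z ∈ P W := by_contra fun h => hzP ⟨hz.2, h⟩
  obtain ⟨θ, hθ⟩ := nonempty_of_measure_ne_zero (hz.1 (f z) hfz)
  exact hf z (z + uv θ) (by simp) (Eq.symm (hsub (f z) hθ))

end Vale.Agent.P032
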