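import Vale.Agent.P032.Triple
import Vale.Agent.P032.Check
import Mathlib.Data.Fintype.Pi
import Mathlib.Data.Fintype.Powerset
import Mathlib.Data.List.FinRange

/-!
Propositional constraints satisfied by the colours on a small triangular lattice.
-/

open Complex Set Filter Topology

namespace Vale.Agent.P032

namespace Lattice

open Check

/-- First coordinate of a lattice point. -/
def ca (j : Fin 25) : ℤ := ((j.val / 5 : ℕ) : ℤ) - 2

/-- Second coordinate of a lattice point. -/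
def cb (j : Fin 25) : ℤ := ((j.val % 5 : ℕ) : ℤ) - 2

/-- First coordinate of a lattice direction. -/
def da : Fin 6 → ℤ
  | 0 => 1 | 1 => 0 | 2 => -1 | 3 => -1 | 4 => 0 | 5 => 1

/-- Second coordinate of a lattice direction. -/
def db : Fin 6 → ℤ
  | 0 => 0 | 1 => 1 | 2 => 1 | 3 => 0 | 4 => -1 | 5 => -1

/-- `j'` is the neighbour of `j` in direction `i`. -/
def step (j : Fin 25) (i : Fin 6) (j' : Fin 25) : Bool :=
  (ca j' == ca j + da i) && (cb j' == cb j + db i)

/-- The kinds of constraints. -/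
inductive Ax : Type where
  | fix (c : Fin 5) : Ax
  | chgA : Ax
  | chgB : Ax
  | ne (j : Fin 25) (i : Fin 6) (k : ℕ) : Ax
  | sub (j : Fin 25) (i : Fin 6) (j' : Fin 25) (k : ℕ) (c : Fin 5) : Ax
  | single (j : Fin 25) (i : Fin 6) (k : ℕ) (c : Fin 5) : Ax
  | rot (j : Fin 25) (i : Fin 6) (k : ℕ) (c : Fin 5) : Ax
  | trans (j : Fin 25) (i e : Fin 6) (j' : Fin 25) (k : ℕ) (c : Fin 5) : Ax
  | seg (j : Fin 25) (i : Fin 6) (k : ℕ) : Ax
  | alT (j : Fin 25) (i : Fin 6) (k : ℕ) (c : Fin 5) : Ax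
  | alQ (j : Fin 25) (i : Fin 6) (k : ℕ) (c : Fin 5) : Ax
  | alQ' (j : Fin 25) (i : Fin 6) (k : ℕ) (c : Fin 5) : Ax
  | alD (j : Fin 25) (i : Fin 6) (k : ℕ) (c : Fin 5) : Ax
  | absent (j : Fin 25) (i e : Fin 6) (z : Fin 25) (k : ℕ) (c : Fin 5) : Ax
  | out (j : Fin 25) (i : Fin 6) (k : ℕ) (a b : Fin 5) : Ax
  | inn (j : Fin 25) (i : Fin 6) (j' : Fin 25) (k : ℕ) (a b : Fin 5) : Ax
  | wit (j : Fin 25) (i e : Fin 6) (j' z : Fin 25) (k : ℕ) (c : Fin 5) : Ax
  | bad : Ax

/-- Decode a constraint. -/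
def decode (n : ℕ) : Ax :=
  let n₁ := n / 32
  let j : Fin 25 := ⟨n₁ % 25, Nat.mod_lt _ (by norm_num)⟩
  let n₂ := n₁ / 25
  let i : Fin 6 := ⟨n₂ % 6, Nat.mod_lt _ (by norm_num)⟩
  let n₃ := n₂ / 6
  let e : Fin 6 := ⟨n₃ % 6, Nat.mod_lt _ (by norm_num)⟩
  let n₄ := n₃ / 6
  let j' : Fin 25 := ⟨n₄ % 25, Nat.mod_lt _ (by norm_num)⟩
  let n₅ := n₄ / 25
  let z : Fin 25 := ⟨n₅ % 25, Nat.mod_lt _ (by norm_num)⟩
  let n₆ := n₅ / 25
  let k := n₆ % 16
  let n₇ := n₆ / 16
  let c : Fin 5 := ⟨n₇ % 5, Nat.mod_lt _ (by norm_num)⟩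
  let n₈ := n₇ / 5
  let a : Fin 5 := ⟨n₈ % 5, Nat.mod_lt _ (by norm_num)⟩
  let b : Fin 5 := ⟨n₈ / 5 % 5, Nat.mod_lt _ (by norm_num)⟩
  match n % 32 with
  | 0 => .fix c
  | 1 => .chgA
  | 2 => .chgB
  | 3 => .ne j i k
  | 4 => .sub j i j' k c
  | 5 => .single j i k c
  | 6 => .rot j i k c
  | 7 => .trans j i e j' k c
  | 8 => .seg j i k
  | 9 => .alT j i k c
  | 10 => .alQ j i k c
  | 11 => .alQ' j i k c
  | 12 => .alD j i k c
  | 13 => .absent j i e z k c
  | 14 => .out j i k a b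
  | 15 => .inn j i j' k a b
  | 16 => .wit j i e j' z k c
  | _ => .bad

/-- Variable: the point has the colour. -/
def vt (j : Fin 25) (c : Fin 5) : ℕ := 4 * (c.val + 5 * j.val)

/-- Variable: the moving point has the colour. -/
def vq (j : Fin 25) (i : Fin 6) (k : ℕ) (c : Fin 5) : ℕ :=
  4 * (c.val + 5 * ((i.val + 6 * j.val) + 150 * k)) + 1

/-- Variable: the colour avoids both arcs. -/
def va (j : Fin 25) (i : Fin 6) (k : ℕ) (c : Fin 5) : ℕ :=
  4 * (c.val + 5 * ((i.val + 6 * j.val) + 150 * k)) + 2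

/-- Variable: the pair arrives at the point. -/
def vi (j : Fin 25) (a b : Fin 5) : ℕ := 4 * (b.val + 5 * a.val + 25 * j.val) + 3

/-- Positive literal. -/
def pl (v : ℕ) : ℕ := 2 * v

/-- Negative literal. -/
def nl (v : ℕ) : ℕ := 2 * v + 1

/-- The colours other than `c`. -/
def others (c : Fin 5) : List (Fin 5) := (List.finRange 5).filter (fun b => !(b == c))

/-- Literals saying that the moving point does not have exactly the pair. -/
def notPair (j : Fin 25) (i : Fin 6) (k : ℕ) (a b : Fin 5) : List ℕ :=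
  (List.finRange 5).map fun c => if c = a ∨ c = b then nl (vq j i k c) else pl (vq j i k c)

/-- The clause of a constraint. -/
def clause (T0 : ℕ) (ch : Fin 5) : Ax → List ℕ
  | .fix c => [if c.val < T0 then pl (vt 12 c) else nl (vt 12 c)]
  | .chgA => [pl (vq 12 0 0 ch)]
  | .chgB => [nl (vq 12 0 1 ch)]
  | .ne j i k => (List.finRange 5).map fun c => pl (vq j i k c)
  | .sub j i j' k c => [nl (vq j i k c), pl (vt j' c)]
  | .single j i k c =>
    nl (vq j i k c) :: nl (vt j c) :: (others c).map fun b => pl (vq j i k b)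
  | .rot j i k c => [nl (vq j i k c), nl (vq j (i + 1) k c)]
  | .trans j i _ j' k c => [nl (vq j i k c), nl (vq j' i k c)]
  | .seg j i k => (List.finRange 5).map fun c => pl (va j i k c)
  | .alT j i k c => [nl (va j i k c), pl (vt j c)]
  | .alQ j i k c => [nl (va j i k c), nl (vq j i k c)]
  | .alQ' j i k c => [nl (va j i k c), nl (vq j (i + 3) k c)]
  | .alD j i k c => [pl (va j i k c), nl (vt j c), pl (vq j i k c), pl (vq j (i + 3) k c)]
  | .absent j i _ z k c =>
    nl (vt z c) :: nl (va j i k c) :: (others c).map fun b => pl (va j i k b)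
  | .out j i k a b => nl (vi j a b) :: notPair j i k a b
  | .inn j i j' k a b => pl (vi j' a b) :: notPair j i k a b
  | .wit j i _ _ z k c => [nl (vt z c), nl (vq j i k c)]
  | .bad => []

/-- The side conditions of a constraint. -/
def good (keys : List (Fin 25 × Fin 6 × Fin 5)) : Ax → Bool
  | .sub j i j' _ _ => step j i j'
  | .trans j _ e j' _ _ => step j e j'
  | .absent j _ e z _ _ => step j e z
  | .out _ _ _ a b => !(a == b)
  | .inn j i j' _ _ _ => step j i j'
  | .wit j i e j' z k c =>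
    step j i j' && step j' e z && decide (2 ≤ k) && !((((e.val : ℤ) - i.val) % 3) == 0)
      && (keys[k - 2]? == some (j, i, c))
  | .bad => false
  | _ => true

/-- The generator of the lattice. -/
noncomputable def om : ℂ := uv (Real.pi / 3)

/-- The position of a lattice point. -/
noncomputable def pos (x : ℂ) (θ : ℝ) (j : Fin 25) : ℂ :=
  x + uv θ * ((ca j : ℂ) + (cb j : ℂ) * om)

/-- The angles of the moving points. -/
noncomputable def ang (θ : ℝ) (n : ℕ) (s : ℝ) : ℝ := θ + n * (Real.pi / 3) + s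

lemma uv_ang (θ : ℝ) (n : ℕ) (s : ℝ) : uv (ang θ n s) = uv (θ + s) * om ^ n := by
  induction n with
  | zero => simp [ang]
  | succ n ih =>
    rw [show ang θ (n + 1) s = ang θ n s + Real.pi / 3 by simp [ang]; ring, uv_add, ih, pow_succ,
      om, mul_assoc]

lemma om_sq : om ^ 2 = om - 1 := by
  have h := (uv_third 0).1
  simp only [zero_add] at h
  rw [show uv 0 = (1 : ℂ) by simp [uv], show 2 * Real.pi / 3 = Real.pi / 3 + Real.pi / 3 by ring,
    uv_add] at h
  rw [om]; linear_combination h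

lemma om_six : om ^ 6 = 1 := by
  linear_combination (om ^ 4 + om ^ 3 - om - 1) * om_sq

lemma om_mod (n : ℕ) : om ^ n = om ^ (n % 6) := pow_eq_pow_mod n om_six

lemma uv_ang_add (θ : ℝ) (i : Fin 6) (m : Fin 6) (s : ℝ) :
    uv (ang θ (i + m : Fin 6).val s) = uv (ang θ (i.val + m.val) s) := by
  rw [uv_ang, uv_ang, Fin.val_add, ← om_mod]

lemma dir_eq (i : Fin 6) : (da i : ℂ) + (db i : ℂ) * om = om ^ i.val := by
  fin_cases i <;> simp [da, db]
  · linear_combination -om_sq
  · linear_combination -(om + 1) * om_sq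
  · linear_combination -(om ^ 2 + om) * om_sq
  · linear_combination -(om ^ 3 + om ^ 2 - 1) * om_sq

lemma pos_step {x : ℂ} {θ : ℝ} {j j' : Fin 25} {i : Fin 6} (h : step j i j' = true) :
    pos x θ j' = pos x θ j + uv (ang θ i.val 0) := by
  simp only [step, Bool.and_eq_true, beq_iff_eq] at h
  rw [uv_ang, add_zero, ← dir_eq, pos, pos, h.1, h.2]
  push_cast
  ring

lemma sin_ne {n : ℤ} {s : ℝ} (hs : |s| < Real.pi / 3) (h : s ≠ 0 ∨ ¬ (3 : ℤ) ∣ n) :
    Real.sin (n * (Real.pi / 3) - s) ≠ 0 := by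
  intro h0
  obtain ⟨m, hm⟩ := Real.sin_eq_zero_iff.1 h0
  have e : s = ((n - 3 * m : ℤ) : ℝ) * (Real.pi / 3) := by push_cast; linarith
  rw [e, abs_mul, abs_of_pos (show 0 < Real.pi / 3 by positivity)] at hs
  have h1 : |((n - 3 * m : ℤ) : ℝ)| < 1 := by nlinarith [Real.pi_pos]
  have h2 : n - 3 * m = 0 := by
    have : |n - 3 * m| < 1 := by exact_mod_cast h1
    exact Int.abs_lt_one_iff.1 this
  rcases h with h | h
  · exact h (by rw [e, h2]; simp)
  · exact h ⟨m, by omega⟩

lemma crs_dir (θ : ℝ) (n m : ℕ) (s : ℝ) :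
    crs (uv (ang θ m 0)) (uv (ang θ n s)) = Real.sin (((m : ℤ) - n : ℤ) * (Real.pi / 3) - s) := by
  rw [crs_uv]; simp only [ang]; push_cast; ring_nf

lemma crs_add_self (d u : ℂ) : crs (d + u) u = crs d u := by
  simp only [crs, Complex.add_re, Complex.add_im]; ring

variable (K : Fin 5 → Set ℂ) (x : ℂ) (θ : ℝ)

/-- The moving point of the edge `(j, i)`. -/
noncomputable def mov (j : Fin 25) (n : ℕ) (s : ℝ) : ℂ := pos x θ j + uv (ang θ n s)

/-- The angle is small enough for the finitely many eventual properties. -/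
def Small (s : ℝ) : Prop :=
  |s| < Real.pi / 3 ∧ ∀ (j : Fin 25) (i : Fin 6),
    col K (mov x θ j i.val s) ⊆ col K (mov x θ j i.val 0) ∧
    ∀ P : Finset (Fin 5), col K (mov x θ j i.val s) = P →
      ∃ᶠ t in 𝓝 (0 : ℝ), col K (mov x θ j i.val t) = P

/-- All moving points are generic. -/
def GenAll (s : ℝ) : Prop := ∀ (j : Fin 25) (n : Fin 9), Gen K (pos x θ j) (ang θ n.val s)

/-- An admissible angle. -/
def Adm (s : ℝ) : Prop := GenAll K x θ s ∧ s ≠ 0 ∧ Small K x θ s

/-- A pair of colours arrives at the point. -/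
def Arrive (j : Fin 25) (a b : Fin 5) : Prop :=
  ∃ i : Fin 6, ∃ᶠ t in 𝓝 (0 : ℝ),
    col K (pos x θ j - uv (ang θ i.val 0) + uv (ang θ i.val t)) = {a, b}

/-- The truth values of the variables. -/
def val (s : ℕ → ℝ) (v : ℕ) : Prop :=
  let y := v / 4
  let c : Fin 5 := ⟨y % 5, Nat.mod_lt _ (by norm_num)⟩
  let i : Fin 6 := ⟨y / 5 % 150 % 6, Nat.mod_lt _ (by norm_num)⟩
  let j : Fin 25 := ⟨y / 5 % 150 / 6 % 25, Nat.mod_lt _ (by norm_num)⟩
  let t := s (y / 5 / 150)
  match v % 4 with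
  | 0 => pos x θ ⟨y / 5 % 25, Nat.mod_lt _ (by norm_num)⟩ ∈ K c
  | 1 => mov x θ j i.val t ∈ K c
  | 2 => pos x θ j ∈ K c ∧ mov x θ j i.val t ∉ K c ∧ mov x θ j (i + 3 : Fin 6).val t ∉ K c
  | _ => Arrive K x θ ⟨y / 25 % 25, Nat.mod_lt _ (by norm_num)⟩
      ⟨y / 5 % 5, Nat.mod_lt _ (by norm_num)⟩ c

variable {K x θ} {s : ℕ → ℝ}

lemma val_t (j : Fin 25) (c : Fin 5) : val K x θ s (vt j c) ↔ pos x θ j ∈ K c := by
  have h1 : vt j c % 4 = 0 := by simp [vt]
  have h2 : vt j c / 4 = c.val + 5 * j.val := by simp [vt]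
  simp only [val, h1, h2]
  have e1 : (⟨(c.val + 5 * j.val) % 5, Nat.mod_lt _ (by norm_num)⟩ : Fin 5) = c :=
    Fin.ext (show (c.val + 5 * j.val) % 5 = c.val by omega)
  have e2 : (⟨(c.val + 5 * j.val) / 5 % 25, Nat.mod_lt _ (by norm_num)⟩ : Fin 25) = j :=
    Fin.ext (show (c.val + 5 * j.val) / 5 % 25 = j.val by omega)
  rw [e1, e2]

lemma val_qa (j : Fin 25) (i : Fin 6) (k : ℕ) (c : Fin 5) :
    (val K x θ s (vq j i k c) ↔ mov x θ j i.val (s k) ∈ K c) ∧
    (val K x θ s (va j i k c) ↔ pos x θ j ∈ K c ∧ mov x θ j i.val (s k) ∉ K c ∧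
      mov x θ j (i + 3 : Fin 6).val (s k) ∉ K c) := by
  set y := c.val + 5 * ((i.val + 6 * j.val) + 150 * k) with hy
  have h1 : vq j i k c % 4 = 1 ∧ va j i k c % 4 = 2 := by simp only [vq, va]; omega
  have h2 : vq j i k c / 4 = y ∧ va j i k c / 4 = y := by simp only [vq, va, ← hy]; omega
  simp only [val, h1, h2]
  have e1 : (⟨y % 5, Nat.mod_lt _ (by norm_num)⟩ : Fin 5) = c :=
    Fin.ext (show y % 5 = c.val by omega)
  have e2 : (⟨y / 5 % 150 % 6, Nat.mod_lt _ (by norm_num)⟩ : Fin 6) = i :=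
    Fin.ext (show y / 5 % 150 % 6 = i.val by omega)
  have e3 : (⟨y / 5 % 150 / 6 % 25, Nat.mod_lt _ (by norm_num)⟩ : Fin 25) = j :=
    Fin.ext (show y / 5 % 150 / 6 % 25 = j.val by omega)
  rw [e1, e2, e3, show y / 5 / 150 = k by omega, show y / 5 % 150 % 6 = i.val by omega]
  exact ⟨Iff.rfl, Iff.rfl⟩

lemma val_i (j : Fin 25) (a b : Fin 5) :
    val K x θ s (vi j a b) ↔ Arrive K x θ j a b := by
  set y := b.val + 5 * a.val + 25 * j.val with hy
  have h1 : vi j a b % 4 = 3 := by simp only [vi]; omega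
  have h2 : vi j a b / 4 = y := by simp only [vi, ← hy]; omega
  simp only [val, h1, h2]
  have e1 : (⟨y % 5, Nat.mod_lt _ (by norm_num)⟩ : Fin 5) = b :=
    Fin.ext (show y % 5 = b.val by omega)
  have e2 : (⟨y / 5 % 5, Nat.mod_lt _ (by norm_num)⟩ : Fin 5) = a :=
    Fin.ext (show y / 5 % 5 = a.val by omega)
  have e3 : (⟨y / 25 % 25, Nat.mod_lt _ (by norm_num)⟩ : Fin 25) = j :=
    Fin.ext (show y / 25 % 25 = j.val by omega)
  rw [e1, e2, e3]

lemma sat_pl {σ : ℕ → Prop} (v : ℕ) : Sat σ (pl v) ↔ σ v := by simp [Sat, pl]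

lemma sat_nl {σ : ℕ → Prop} (v : ℕ) : Sat σ (nl v) ↔ ¬ σ v := by
  simp [Sat, nl, show (2 * v + 1) / 2 = v by omega]

lemma mem_others {b c : Fin 5} : b ∈ others c ↔ b ≠ c := by simp [others]

lemma col_pair {z : ℂ} {a b : Fin 5} (h : ∀ c, z ∈ K c ↔ (c = a ∨ c = b)) :
    col K z = {a, b} := by
  ext c; simp [mem_col, h c]

lemma small_eventually (h : Config K) : ∀ᶠ s in 𝓝 (0 : ℝ), Small K x θ s := by
  refine Eventually.and ?_ (eventually_all.2 fun j => eventually_all.2 fun i => Eventually.and ?_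
    (eventually_all.2 fun P => ?_))
  · exact (continuous_abs.tendsto' (0 : ℝ) 0 abs_zero).eventually
      (gt_mem_nhds (by positivity : (0 : ℝ) < Real.pi / 3))
  · have hc : Continuous fun t => mov x θ j i.val t := by
      have := continuous_uv; unfold mov ang; fun_prop
    exact (hc.tendsto 0).eventually (h.eventually_col _)
  · by_cases hP : ∃ᶠ t in 𝓝 (0 : ℝ), col K (mov x θ j i.val t) = P
    · exact Eventually.of_forall fun _ _ => hP
    · filter_upwards [not_frequently.1 hP] with t ht ht' using absurd ht' ht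

lemma exists_adm (h : Config K) {U : Set ℝ} (hU : IsOpen U) (hne : U.Nonempty) :
    ∃ t ∈ U, GenAll K x θ t ∧ t ≠ 0 := by
  obtain ⟨hO, hD⟩ := h.dense_gens (fun p : Fin 25 × Fin 9 => pos x θ p.1)
    (fun p => θ + p.2.val * (Real.pi / 3))
  obtain ⟨t, ⟨ht, ht'⟩, htU⟩ :=
    (((dense_compl_singleton (0 : ℝ)).inter_of_isOpen_right hD hO).inter_open_nonempty U hU hne).imp
      fun t ht => And.intro ht.2 ht.1
  refine ⟨t, htU, fun j n => ?_, ht⟩
  have := ht' (j, n)
  rwa [show ang θ n.val t = t + (θ + n.val * (Real.pi / 3)) by simp [ang]; ring]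

lemma pos_centre : pos x θ 12 = x := by simp [pos, ca, cb]

/-- An admissible angle with a property occurring frequently at the centre. -/
lemma adm_of_frequently (h : Config K) {P : Finset (Fin 5) → Prop}
    (hf : ∃ᶠ t in 𝓝 θ, Gen K x t ∧ P (col K (x + uv t))) :
    ∃ t, Adm K x θ t ∧ P (col K (mov x θ 12 (0 : Fin 6).val t)) := by
  obtain ⟨U, hU, hUo, h0⟩ := eventually_nhds_iff.1 (small_eventually (x := x) (θ := θ) h)
  have hV : ∀ᶠ t in 𝓝 θ, t - θ ∈ U :=
    (Continuous.tendsto' (by fun_prop) θ 0 (sub_self θ) : Tendsto (fun t => t - θ) (𝓝 θ) (𝓝 0))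
      |>.eventually (hUo.mem_nhds h0)
  obtain ⟨t₁, ⟨hg, hP⟩, ht₁⟩ := (hf.and_eventually hV).exists
  obtain ⟨W, hW, hWo, htW⟩ := eventually_nhds_iff.1 (hg.nearby)
  obtain ⟨t, ⟨htU, htW'⟩, hG, hne⟩ := exists_adm (x := x) (θ := θ) h
    (hUo.inter (hWo.preimage (continuous_const_add θ)))
    ⟨t₁ - θ, ht₁, by simpa using htW⟩
  refine ⟨t, ⟨hG, hne, hU t htU⟩, ?_⟩
  have e : mov x θ 12 (0 : Fin 6).val t = x + uv (θ + t) := by simp [mov, pos_centre, ang]
  rw [e, col_gen (hW _ htW').2]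
  exact hP

/-- All constraints hold. -/
theorem clause_sat (h : Config K) {T0 : ℕ} {ch : Fin 5} {keys : List (Fin 25 × Fin 6 × Fin 5)}
    (hfix : ∀ c : Fin 5, x ∈ K c ↔ c.val < T0) (hadm : ∀ k, Adm K x θ (s k))
    (hA : mov x θ 12 (0 : Fin 6).val (s 0) ∈ K ch) (hB : mov x θ 12 (0 : Fin 6).val (s 1) ∉ K ch)
    (hwit : ∀ k, 2 ≤ k → ∀ j i c, keys[k - 2]? = some (j, i, c) →
      mov x θ j i.val (s k) ∈ K c → ∀ t, Adm K x θ t → mov x θ j i.val t ∈ K c) :
    ∀ a : Ax, good keys a = true → SatC (val K x θ s) (clause T0 ch a) := by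
  intro a ha
  simp only [SatC]
  have garc : ∀ j (n : Fin 9) k c, mov x θ j n.val (s k) ∈ K c →
      Arc K (pos x θ j) (ang θ n.val (s k)) c :=
    fun j n k c hc => ((hadm k).1 j n).arc hc
  have antip : ∀ j (i : Fin 6) k c, mov x θ j (i + 3 : Fin 6).val (s k) ∈ K c →
      Arc K (pos x θ j) (ang θ i.val (s k) + Real.pi) c := by
    intro j i k c hc
    have := garc j ⟨i.val + 3, by omega⟩ k c (by
      show pos x θ j + uv (ang θ (i.val + 3) (s k)) ∈ K c
      rw [mov, uv_ang_add] at hc; exact hc)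
    rwa [show ang θ i.val (s k) + Real.pi = ang θ (i.val + 3) (s k) by simp [ang]; ring]
  cases a with
  | bad => simp [good] at ha
  | fix c =>
    refine ⟨_, List.mem_cons_self, ?_⟩
    split <;> rename_i hc
    · rw [sat_pl, val_t, pos_centre]; exact (hfix c).2 hc
    · rw [sat_nl, val_t, pos_centre]; exact fun h' => hc ((hfix c).1 h')
  | chgA => exact ⟨_, List.mem_cons_self, by rw [sat_pl, (val_qa _ _ _ _).1]; exact hA⟩
  | chgB => exact ⟨_, List.mem_cons_self, by rw [sat_nl, (val_qa _ _ _ _).1]; exact hB⟩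
  | ne j i k =>
    obtain ⟨c, hc⟩ := h.cover (mov x θ j i.val (s k))
    exact ⟨_, List.mem_map.2 ⟨c, List.mem_finRange c, rfl⟩,
      by rwa [sat_pl, (val_qa _ _ _ _).1]⟩
  | sub j i j' k c =>
    by_cases hc : mov x θ j i.val (s k) ∈ K c
    · refine ⟨pl (vt j' c), by simp [clause], ?_⟩
      rw [sat_pl, val_t, pos_step (by simpa [good] using ha), ← mem_col]
      exact ((hadm k).2.2.2 j i).1 (mem_col.2 hc)
    · exact ⟨nl (vq j i k c), by simp [clause], by rwa [sat_nl, (val_qa _ _ _ _).1]⟩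
  | single j i k c =>
    by_contra hcon
    simp only [clause, List.mem_cons, List.mem_map, not_exists, not_and, or_imp, forall_and,
      forall_eq, sat_nl, val_t, (val_qa _ _ _ _).1, not_not] at hcon
    obtain ⟨hq, ht, hall⟩ := hcon
    refine h.single (show ‖mov x θ j i.val (s k) - pos x θ j‖ = 1 by simp [mov]) ?_ ht
    intro c' hc'
    by_contra hne
    exact hall _ ⟨c', mem_others.2 hne, rfl⟩ (by rwa [sat_pl, (val_qa _ _ _ _).1])
  | rot j i k c =>
    by_cases hc : mov x θ j i.val (s k) ∈ K c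
    · refine ⟨nl (vq j (i + 1) k c), by simp [clause], ?_⟩
      rw [sat_nl, (val_qa _ _ _ _).1]
      have := ((hadm k).1 j ⟨i.val, by omega⟩).rot h hc
      rwa [mov, uv_ang_add, show (1 : Fin 6).val = 1 from rfl,
        show ang θ (i.val + 1) (s k) = ang θ i.val (s k) + Real.pi / 3 by
        simp [ang]; ring]
    · exact ⟨nl (vq j i k c), by simp [clause], by rwa [sat_nl, (val_qa _ _ _ _).1]⟩
  | trans j i e j' k c =>
    by_contra hcon
    simp only [clause, List.mem_cons, List.not_mem_nil, or_false, not_exists, not_and, or_imp,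
      forall_and, forall_eq, sat_nl, (val_qa _ _ _ _).1, not_not] at hcon
    obtain ⟨h1, h2⟩ := hcon
    have hz : mov x θ j' i.val (s k) - pos x θ j = uv (ang θ e.val 0) + uv (ang θ i.val (s k)) := by
      rw [mov, pos_step (by simpa [good] using ha)]; ring
    have h0 := h.cross (garc j ⟨i.val, by omega⟩ k c h1) h2 (by
      rw [mov, pos_step (x := x) (θ := θ) (show step j e j' = true by simpa [good] using ha),
        show pos x θ j + uv (ang θ i.val (s k)) - (pos x θ j + uv (ang θ e.val 0) +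
          uv (ang θ i.val (s k))) = -uv (ang θ e.val 0) by ring, norm_neg, norm_uv])
    rw [hz, crs_add_self, crs_dir] at h0
    exact sin_ne (hadm k).2.2.1 (Or.inl (hadm k).2.1) h0
  | seg j i k =>
    obtain ⟨c, hc, h1, h2⟩ := h.seg_exists (pos x θ j) (ang θ i.val (s k))
    refine ⟨_, List.mem_map.2 ⟨c, List.mem_finRange c, rfl⟩, ?_⟩
    rw [sat_pl, (val_qa _ _ _ _).2]
    exact ⟨hc, fun h' => h1 (garc j ⟨i.val, by omega⟩ k c h'), fun h' => h2 (antip j i k c h')⟩
  | alT j i k c =>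
    by_cases hc : pos x θ j ∈ K c
    · exact ⟨pl (vt j c), by simp [clause], by rwa [sat_pl, val_t]⟩
    · exact ⟨nl (va j i k c), by simp [clause],
        by rw [sat_nl, (val_qa _ _ _ _).2]; exact fun h' => hc h'.1⟩
  | alQ j i k c =>
    by_cases hc : mov x θ j i.val (s k) ∈ K c
    · exact ⟨nl (va j i k c), by simp [clause],
        by rw [sat_nl, (val_qa _ _ _ _).2]; exact fun h' => h'.2.1 hc⟩
    · exact ⟨nl (vq j i k c), by simp [clause], by rwa [sat_nl, (val_qa _ _ _ _).1]⟩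
  | alQ' j i k c =>
    by_cases hc : mov x θ j (i + 3 : Fin 6).val (s k) ∈ K c
    · exact ⟨nl (va j i k c), by simp [clause],
        by rw [sat_nl, (val_qa _ _ _ _).2]; exact fun h' => h'.2.2 hc⟩
    · exact ⟨nl (vq j (i + 3) k c), by simp [clause], by rwa [sat_nl, (val_qa _ _ _ _).1]⟩
  | alD j i k c =>
    by_contra hcon
    simp only [clause, List.mem_cons, List.not_mem_nil, or_false, not_exists, not_and, or_imp,
      forall_and, forall_eq, sat_nl, sat_pl, val_t, (val_qa _ _ _ _).1, (val_qa _ _ _ _).2,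
      not_not] at hcon
    tauto
  | absent j i e z k c =>
    by_contra hcon
    simp only [clause, List.mem_cons, List.mem_map, not_exists, not_and, or_imp, forall_and,
      forall_eq, sat_nl, val_t, (val_qa _ _ _ _).2, not_not] at hcon
    obtain ⟨hz, -, hall⟩ := hcon
    have huniq : ∀ c', pos x θ j ∈ K c' → c' ≠ c → Arc K (pos x θ j) (ang θ i.val (s k)) c' ∨
        Arc K (pos x θ j) (ang θ i.val (s k) + Real.pi) c' := by
      intro c' hc' hne
      have hn := hall _ ⟨c', mem_others.2 hne, rfl⟩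
      rw [sat_pl, (val_qa _ _ _ _).2] at hn
      by_cases h1 : mov x θ j i.val (s k) ∈ K c'
      · exact Or.inl (garc j ⟨i.val, by omega⟩ k c' h1)
      · by_cases h2 : mov x θ j (i + 3 : Fin 6).val (s k) ∈ K c'
        · exact Or.inr (antip j i k c' h2)
        · exact absurd ⟨hc', h1, h2⟩ hn
    have hzz : pos x θ z - pos x θ j = uv (ang θ e.val 0) := by
      rw [pos_step (show step j e z = true by simpa [good] using ha)]; ring
    have h0 := h.seg_absent huniq hz (by rw [hzz, norm_uv])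
    rw [hzz, crs_dir] at h0
    exact sin_ne (hadm k).2.2.1 (Or.inl (hadm k).2.1) h0
  | out j i k a b =>
    by_contra hcon
    simp only [clause, notPair, List.mem_cons, List.mem_map, List.mem_finRange, true_and,
      not_exists, not_and, or_imp, forall_and, forall_eq, sat_nl, val_i, not_not] at hcon
    obtain ⟨⟨i', hi'⟩, hall⟩ := hcon
    set w := mov x θ j i.val (s k) with hw
    have hwc : col K w = {a, b} := col_pair fun c => by
      have hn := hall _ ⟨c, rfl⟩
      by_cases hc : c = a ∨ c = b <;> simp_all [sat_nl, sat_pl, (val_qa _ _ _ _).1]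
    have hN : ∀ᶠ q in 𝓝 w, ∀ c, q ∈ K c → c = a ∨ c = b := by
      filter_upwards [h.eventually_col w] with q hq c hc
      simpa [hwc] using hq (mem_col.2 hc)
    set v := fun t => pos x θ j - uv (ang θ i'.val 0) + uv (ang θ i'.val t)
    have ht : Tendsto (fun t => v t + (w - pos x θ j)) (𝓝 0) (𝓝 w) := by
      have hc : Continuous fun t => v t + (w - pos x θ j) := by
        have := continuous_uv; simp only [v]; unfold ang; fun_prop
      simpa [v] using hc.tendsto 0
    obtain ⟨t, htc, htw⟩ := (hi'.and_eventually (ht.eventually hN.eventually_nhds)).exists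
    have hab : a ≠ b := by simpa [good] using ha
    refine h.two_col hab (show ‖v t + (w - pos x θ j) - v t‖ = 1 by simp [hw, mov]) ?_ htw
      (mem_col.1 (by simp [v, htc])) (mem_col.1 (by simp [v, htc]))
    filter_upwards [h.eventually_col (v t)] with q hq c hc
    simpa [v, htc] using hq (mem_col.2 hc)
  | inn j i j' k a b =>
    by_contra hcon
    simp only [clause, notPair, List.mem_cons, List.mem_map, List.mem_finRange, true_and,
      not_exists, not_and, or_imp, forall_and, forall_eq, sat_pl, val_i] at hcon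
    obtain ⟨hno, hall⟩ := hcon
    have hwc : col K (mov x θ j i.val (s k)) = {a, b} := col_pair fun c => by
      have hn := hall _ ⟨c, rfl⟩
      by_cases hc : c = a ∨ c = b <;> simp_all [sat_nl, sat_pl, (val_qa _ _ _ _).1]
    refine hno ⟨i, ?_⟩
    rw [pos_step (show step j i j' = true by simpa [good] using ha), add_sub_cancel_right]
    exact ((hadm k).2.2.2 j i).2 _ hwc
  | wit j i e j' z k c =>
    simp only [good, Bool.and_eq_true, decide_eq_true_eq, beq_iff_eq, Bool.not_eq_true',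
      beq_eq_false_iff_ne] at ha
    obtain ⟨⟨⟨⟨hij, hez⟩, hk⟩, hmod⟩, hkey⟩ := ha
    by_contra hcon
    simp only [clause, List.mem_cons, List.not_mem_nil, or_false, not_exists, not_and, or_imp,
      forall_and, forall_eq, sat_nl, val_t, (val_qa _ _ _ _).1, not_not] at hcon
    obtain ⟨hz, hq⟩ := hcon
    have hall := hwit k hk j i c hkey hq
    obtain ⟨U, hU, hUo, h0⟩ := eventually_nhds_iff.1 (small_eventually (x := x) (θ := θ) h)
    have hc : Continuous fun t => mov x θ j i.val t := by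
      have := continuous_uv; unfold mov ang; fun_prop
    have hsub : ∀ t ∈ U, mov x θ j i.val t ∈ K c := by
      intro t ht
      by_contra hn
      obtain ⟨t', ⟨ht', htn⟩, hG, hne⟩ := exists_adm (x := x) (θ := θ) h
        (hUo.inter ((h.closed c).isOpen_compl.preimage hc)) ⟨t, ht, hn⟩
      exact htn (hall t' ⟨hG, hne, hU t' ht'⟩)
    have harc : Arc K (pos x θ j) (ang θ i.val 0) c := by
      have hm : ∀ᶠ τ in 𝓝 (ang θ i.val 0), τ - ang θ i.val 0 ∈ U :=
        (Continuous.tendsto' (by fun_prop) _ 0 (sub_self _) :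
          Tendsto (fun τ => τ - ang θ i.val 0) _ (𝓝 0)).eventually (hUo.mem_nhds h0)
      filter_upwards [hm] with τ hτ
      have := hsub _ hτ
      rwa [mov, show ang θ i.val (τ - ang θ i.val 0) = τ by simp [ang]] at this
    have hz' : pos x θ z = pos x θ j + uv (ang θ i.val 0) + uv (ang θ e.val 0) := by
      rw [pos_step hez, pos_step hij]
    have h1 := h.cross harc hz (by
      rw [hz', show pos x θ j + uv (ang θ i.val 0) - (pos x θ j + uv (ang θ i.val 0) +
        uv (ang θ e.val 0)) = -uv (ang θ e.val 0) by ring, norm_neg, norm_uv])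
    rw [hz', show pos x θ j + uv (ang θ i.val 0) + uv (ang θ e.val 0) - pos x θ j
      = uv (ang θ e.val 0) + uv (ang θ i.val 0) by ring, crs_add_self, crs_dir] at h1
    exact sin_ne (by simpa using (by positivity : 0 < Real.pi / 3))
      (Or.inr fun hd => hmod (Int.emod_eq_zero_of_dvd hd)) h1

/-- A successful check of a certificate excludes the configuration. -/
theorem cert_false (h : Config K) {T0 : ℕ} {ch : Fin 5} {keys : List (Fin 25 × Fin 6 × Fin 5)}
    (hcheck : ∀ σ : ℕ → Prop, (∀ n, good keys (decode n) = true →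
      SatC σ (clause T0 ch (decode n))) → False)
    (hfix : ∀ c : Fin 5, x ∈ K c ↔ c.val < T0)
    (hA : ∃ᶠ t in 𝓝 θ, Gen K x t ∧ ch ∈ col K (x + uv t))
    (hB : ∃ᶠ t in 𝓝 θ, Gen K x t ∧ ch ∉ col K (x + uv t)) : False := by
  classical
  obtain ⟨tA, hAa, hAc⟩ := adm_of_frequently (θ := θ) h (P := fun C => ch ∈ C) hA
  obtain ⟨tB, hBa, hBc⟩ := adm_of_frequently (θ := θ) h (P := fun C => ch ∉ C) hB
  let sel : Fin 25 × Fin 6 × Fin 5 → ℝ := fun q =>
    if hq : ∃ t, Adm K x θ t ∧ mov x θ q.1 q.2.1.val t ∉ K q.2.2 then hq.choose else tA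
  let smp : ℕ → ℝ := fun k =>
    if k = 0 then tA else if k = 1 then tB else (keys[k - 2]?).elim tA sel
  have hsel : ∀ q, Adm K x θ (sel q) := by
    intro q
    simp only [sel]
    split
    next hq => exact hq.choose_spec.1
    next => exact hAa
  have hadm : ∀ k, Adm K x θ (smp k) := by
    intro k
    simp only [smp]
    split_ifs
    · exact hAa
    · exact hBa
    · cases keys[k - 2]? with
      | none => exact hAa
      | some q => exact hsel q
  refine hcheck (val K x θ smp) (fun n hn => clause_sat h hfix hadm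
    (by simpa [smp] using mem_col.1 hAc) (by simpa [smp] using fun h' => hBc (mem_col.2 h')) ?_
    (decode n) hn)
  intro k hk j i c hkey hmem t ht
  by_contra hn
  have hq : ∃ t, Adm K x θ t ∧ mov x θ j i.val t ∉ K c := ⟨t, ht, hn⟩
  simp only [smp, if_neg (show k ≠ 0 by omega), if_neg (show k ≠ 1 by omega), hkey,
    Option.elim_some, sel, dif_pos hq] at hmem
  exact hq.choose_spec.2 hmem

end Lattice

end Vale.Agent.P032
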