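import Vale.Agent.P032.NoFour
import Mathlib.Topology.Baire.BaireMeasurable

/-!
A proper colouring of the plane by five classes with the Baire property does not exist.
-/

open Complex Set Filter Topology

namespace Vale.Agent.P032

/-- There is no configuration. -/
theorem Config.false {K : Fin 5 → Set ℂ} (h : Config K) : False := by
  have hle : ∀ q, (col K q).card ≤ 3 := by
    intro q
    by_contra hlt
    have h5 : (col K q).card ≤ 5 := by simpa using Finset.card_le_univ (col K q)
    rcases (show (col K q).card = 4 ∨ (col K q).card = 5 by omega) with e | e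
    · exact h.no_four q e
    · exact h.no_five q (Finset.eq_univ_of_card _ (by simpa using e))
  obtain ⟨x, hx⟩ := h.exists_three
  exact h.no_triple hle (x := x) (le_antisymm (hle x) hx)

/-- No proper five-colouring of `ℂ` has Baire-measurable classes. -/
theorem no_baire_five (f : ℂ → Fin 5) (hf : ∀ x y, ‖y - x‖ = 1 → f x ≠ f y)
    (hB : ∀ c, BaireMeasurableSet (f ⁻¹' {c})) : False := by
  choose V hVo hV using fun c => (hB c).residualEq_isOpen
  have hev : ∀ c, ∀ᶠ z in residual ℂ, (f z = c ↔ z ∈ V c) := fun c => eventuallyEq_set.1 (hV c)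
  refine Config.false (K := fun c => closure (V c)) ⟨fun c => isClosed_closure, fun x => ?_,
    fun c => closure_mono (interior_maximal subset_closure (hVo c)), fun c x y hx hxy hy => ?_⟩
  · have hd : Dense (⋃ c, V c) :=
      (dense_of_mem_residual (eventually_countable_forall.2 hev)).mono
        fun z hz => mem_iUnion.2 ⟨f z, (hz (f z)).1 rfl⟩
    have := hd x
    rwa [closure_iUnion_of_finite, mem_iUnion] at this
  · set v := y - x with hv
    set U := interior (closure (V c))
    obtain ⟨w, hwU, hwV⟩ := mem_closure_iff.1 hy ((fun z => z - v) ⁻¹' U)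
      (isOpen_interior.preimage (by fun_prop)) (by simpa [hv] using hx)
    obtain ⟨w', ⟨-, hw'⟩, hw'V⟩ := mem_closure_iff.1 (interior_subset hwU : w - v ∈ closure (V c))
      (U ∩ (fun z => z + v) ⁻¹' V c) (isOpen_interior.inter ((hVo c).preimage (by fun_prop)))
      ⟨hwU, by simpa using hwV⟩
    have hres : {z | (f z = c ↔ z ∈ V c) ∧ (f (z + v) = c ↔ z + v ∈ V c)} ∈ residual ℂ :=
      (hev c).and ((tendsto_residual_of_isOpenMap (Homeomorph.addRight v).continuous
        (Homeomorph.addRight v).isOpenMap).eventually (hev c))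
    obtain ⟨z, ⟨hz1, hz2⟩, hz3, hz4⟩ := (dense_of_mem_residual hres).inter_open_nonempty
      (V c ∩ (fun z => z + v) ⁻¹' V c) ((hVo c).inter ((hVo c).preimage (by fun_prop)))
      ⟨w', hw'V, hw'⟩
    exact hf z (z + v) (by simpa [hv] using hxy) ((hz3.2 hz1).trans (hz4.2 hz2).symm)

end Vale.Agent.P032
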