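import Vale.Agent.P032.GoodDisc

/-!
A colouring with measurable classes yields a closed cover by regular closed sets such that no
interior point of a piece is at unit distance from the same piece.
-/

open Complex Set Filter Topology MeasureTheory Metric

namespace Vale.Agent.P032

/-- From measurable classes to regular closed pieces. -/
theorem exists_closed_cover {n : ℕ} (f : ℂ → Fin n) (hf : ∀ x y, ‖y - x‖ = 1 → f x ≠ f y)
    (hm : ∀ c, NullMeasurableSet (f ⁻¹' {c}) volume) :
    ∃ K : Fin n → Set ℂ, (∀ c, IsClosed (K c)) ∧ (∀ x, ∃ c, x ∈ K c) ∧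
      (∀ c, K c ⊆ closure (interior (K c))) ∧
      ∀ c x y, x ∈ interior (K c) → ‖y - x‖ = 1 → y ∉ K c := by
  choose A hsub hAm hd hfull using fun c => exists_core (hm c)
  set V : Fin n → Set ℂ := fun c => ⋃₀ {W | GoodSet (A c) W}
  have hVo : ∀ c, IsOpen (V c) := fun c => isOpen_sUnion fun W hW => hW.1
  refine ⟨fun c => closure (V c), fun c => isClosed_closure, fun x => ?_,
    fun c => closure_mono (interior_maximal subset_closure (hVo c)), fun c x y hx hxy hy => ?_⟩
  · have hd' : Dense (⋃ c, V c) := dense_iff_inter_open.2 fun U hU hUne => by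
      obtain ⟨c, W, hWU, hW⟩ := exists_good f hf hAm hd hsub hfull hU hUne
      obtain ⟨z, hz⟩ := hW.2.1
      exact ⟨z, hWU hz, mem_iUnion.2 ⟨c, mem_sUnion.2 ⟨W, hW, hz⟩⟩⟩
    have := hd' x
    rwa [closure_iUnion_of_finite, mem_iUnion] at this
  · set v := y - x with hv
    obtain ⟨w, hwU, hwV⟩ := mem_closure_iff.1 hy ((fun z => z - v) ⁻¹' interior (closure (V c)))
      (isOpen_interior.preimage (by fun_prop)) (by simpa [hv] using hx)
    obtain ⟨w', ⟨-, hw'⟩, hw'V⟩ := mem_closure_iff.1 (interior_subset hwU : w - v ∈ closure (V c))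
      (interior (closure (V c)) ∩ (fun z => z + v) ⁻¹' V c)
      (isOpen_interior.inter ((hVo c).preimage (by fun_prop))) ⟨hwU, by simpa using hwV⟩
    obtain ⟨W₁, hW₁, h1⟩ := mem_sUnion.1 hw'V
    obtain ⟨W₂, hW₂, h2⟩ := mem_sUnion.1 hw'
    refine hW₂.2.2.1 (W₂ ∩ (fun z => z - v) ⁻¹' W₁) inter_subset_left
      (hW₂.1.inter (hW₁.1.preimage (by fun_prop))) ⟨w' + v, h2, by simpa using h1⟩
      (measure_mono_null ?_ hW₁.2.2.2)
    exact fun z hz => ⟨hz.1, z - v, hz.2.2, by simpa [hv] using hxy⟩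

end Vale.Agent.P032
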