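import Vale.Agent.P032.CheckFive
import Vale.Agent.P032.CheckFour
import Vale.Agent.P032.Exists

/-!
No point of the plane has four or five colours; hence there is no configuration at all.
-/

open Complex Set Filter Topology

namespace Vale.Agent.P032

variable {K : Fin 5 → Set ℂ}

/-- If the presence of `c` at the circle about `x` is not constant, recolour and apply a
certificate. -/
lemma Config.not_constant (h : Config K) (x : ℂ) {c : Fin 5}
    (hno : ∀ θ, (∃ᶠ t in 𝓝 θ, Gen K x t ∧ c ∈ col K (x + uv t)) →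
      (∃ᶠ t in 𝓝 θ, Gen K x t ∧ c ∉ col K (x + uv t)) → False) :
    (∀ t, Gen K x t → c ∈ col K (x + uv t)) ∨ (∀ t, Gen K x t → c ∉ col K (x + uv t)) := by
  by_contra! hcon
  obtain ⟨⟨a, ha, ha'⟩, b, hb, hb'⟩ := hcon
  obtain ⟨θ, h1, h2⟩ := h.change x (fun t => c ∈ col K (x + uv t)) ⟨b, hb, hb'⟩ ⟨a, ha, ha'⟩
  exact hno θ h1 h2

lemma gen_perm {p : ℂ} {t : ℝ} (σ : Equiv.Perm (Fin 5)) (hg : Gen K p t) :
    Gen (fun c => K (σ c)) p t := fun c => hg (σ c)

/-- No point has five colours. -/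
theorem Config.no_five (h : Config K) (x : ℂ) (hx : col K x = Finset.univ) : False := by
  have hconst : ∀ c, (∀ t, Gen K x t → c ∈ col K (x + uv t)) ∨
      (∀ t, Gen K x t → c ∉ col K (x + uv t)) := by
    refine fun c => h.not_constant x fun θ h1 h2 => ?_
    set σ := Equiv.swap (0 : Fin 5) c
    have e : ∀ z, (0 ∈ col (fun d => K (σ d)) z ↔ c ∈ col K z) := fun z => by
      simp [mem_col, σ]
    refine Lattice.cert_false (θ := θ) (h.comp σ) CertFive.refute (fun d => ?_)
      (h1.mono fun t ht => ⟨gen_perm σ ht.1, (e _).2 ht.2⟩)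
      (h2.mono fun t ht => ⟨gen_perm σ ht.1, fun h' => ht.2 ((e _).1 h')⟩)
    simp only [d.isLt, iff_true]
    exact mem_col.1 (by rw [hx]; exact Finset.mem_univ _)
  obtain ⟨t, -, ht⟩ := (h.dense_gens (fun _ : Bool => x)
    (fun b => cond b (Real.pi / 3) 0)).2.inter_open_nonempty univ isOpen_univ ⟨0, trivial⟩
  have g0 : Gen K x t := by simpa using ht false
  obtain ⟨c, hc⟩ := h.col_nonempty (x + uv t)
  rcases hconst c with hall | hnone
  · exact g0.rot h (mem_col.1 hc) (mem_col.1 (hall _ (ht true)))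
  · exact hnone t g0 hc

/-- No point has four colours. -/
theorem Config.no_four (h : Config K) (x : ℂ) (hx : (col K x).card = 4) : False := by
  obtain ⟨f, hf⟩ := Finset.card_eq_one.1
    (show (col K x)ᶜ.card = 1 by rw [Finset.card_compl, hx]; rfl)
  have hfx : ∀ c, c ∈ col K x ↔ c ≠ f := by
    intro c
    have := congrArg (fun s : Finset (Fin 5) => c ∈ s) hf
    simp only [Finset.mem_compl, Finset.mem_singleton, eq_iff_iff] at this
    tauto
  have hconst : (∀ t, Gen K x t → f ∈ col K (x + uv t)) ∨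
      (∀ t, Gen K x t → f ∉ col K (x + uv t)) := by
    refine h.not_constant x fun θ h1 h2 => ?_
    set σ := Equiv.swap (4 : Fin 5) f
    have e : ∀ z, (4 ∈ col (fun d => K (σ d)) z ↔ f ∈ col K z) := fun z => by
      simp [mem_col, σ]
    refine Lattice.cert_false (θ := θ) (h.comp σ) CertFour.refute (fun d => ?_)
      (h1.mono fun t ht => ⟨gen_perm σ ht.1, (e _).2 ht.2⟩)
      (h2.mono fun t ht => ⟨gen_perm σ ht.1, fun h' => ht.2 ((e _).1 h')⟩)
    rw [← mem_col, hfx, ← Equiv.swap_apply_left (4 : Fin 5) f, σ.injective.ne_iff]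
    simp only [ne_eq, Fin.ext_iff]
    omega
  rcases hconst with hall | hnone
  · obtain ⟨t, -, ht⟩ := (h.dense_gens (fun _ : Bool => x)
      (fun b => cond b (Real.pi / 3) 0)).2.inter_open_nonempty univ isOpen_univ ⟨0, trivial⟩
    have g0 : Gen K x t := by simpa using ht false
    exact g0.rot h (mem_col.1 (hall t g0)) (mem_col.1 (hall _ (ht true)))
  obtain ⟨t, -, ht⟩ := (h.dense_gens (fun _ : Fin 4 => x)
    (fun n => n.val * (Real.pi / 3))).2.inter_open_nonempty univ isOpen_univ ⟨0, trivial⟩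
  set a : ℕ → ℝ := fun n => t + n * (Real.pi / 3)
  set Q : ℕ → Finset (Fin 5) := fun n => col K (x + uv (a n))
  have hg : ∀ n, n < 4 → Gen K x (a n) := fun n hn => ht ⟨n, hn⟩
  have hsub : ∀ n, n < 4 → Q n ⊆ col K x := fun n hn c hc =>
    (hfx c).2 fun e => hnone _ (hg n hn) (e ▸ hc)
  have htwo : ∀ n, n < 4 → 2 ≤ (Q n).card := by
    intro n hn
    by_contra hlt
    have hpos : 0 < (Q n).card := (h.col_nonempty _).card_pos
    obtain ⟨c, hc⟩ := Finset.card_eq_one.1 (show (Q n).card = 1 by omega)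
    refine h.single (show ‖x + uv (a n) - x‖ = 1 by simp) (fun c' hc' => ?_)
      (mem_col.1 (hsub n hn (show c ∈ Q n by simp [hc])))
    have : c' ∈ Q n := mem_col.2 hc'
    simpa [hc] using this
  have hnext : ∀ n, n + 1 < 4 → Q (n + 1) = col K x \ Q n := by
    intro n hn
    refine Finset.eq_of_subset_of_card_le (fun c hc => Finset.mem_sdiff.2 ⟨hsub _ hn hc, ?_⟩) ?_
    · intro hc'
      refine (hg n (by omega)).rot h (mem_col.1 hc') ?_
      rw [show a n + Real.pi / 3 = a (n + 1) by simp [a]; ring]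
      exact mem_col.1 hc
    · rw [Finset.card_sdiff_of_subset (hsub n (by omega)), hx]
      have := htwo n (by omega)
      have := htwo _ hn
      omega
  obtain ⟨c, hc, h0, h3⟩ := h.seg_exists x (a 0)
  have hc0 : c ∉ Q 0 := fun hc' => h0 ((hg 0 (by omega)).arc (mem_col.1 hc'))
  have hc3 : c ∈ Q 3 := by
    simp [hnext 2 (by omega), hnext 1 (by omega), hnext 0 (by omega), mem_col.2 hc, hc0]
  refine h3 ?_
  rw [show a 0 + Real.pi = a 3 by simp [a]; ring]
  exact (hg 3 (by omega)).arc (mem_col.1 hc3)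

end Vale.Agent.P032
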