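import Vale.Agent.P032.Generic

/-!
If no point has four colours, then no point has three colours.
-/

open Complex Set Filter Topology

namespace Vale.Agent.P032

variable {K : Fin 5 → Set ℂ}

open Classical in
/-- The colours at a point. -/
noncomputable def col (K : Fin 5 → Set ℂ) (x : ℂ) : Finset (Fin 5) := {c | x ∈ K c}

lemma mem_col {x : ℂ} {c : Fin 5} : c ∈ col K x ↔ x ∈ K c := by simp [col]

lemma col_gen {p : ℂ} {s τ : ℝ} (hh : ∀ c, (p + uv τ ∈ K c ↔ p + uv s ∈ K c)) :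
    col K (p + uv τ) = col K (p + uv s) := by
  ext c; simp [mem_col, hh c]

lemma Config.eventually_col (h : Config K) (x : ℂ) : ∀ᶠ z in 𝓝 x, col K z ⊆ col K x := by
  filter_upwards [h.eventually_sub x] with z hz c hc
  exact mem_col.2 (hz c (mem_col.1 hc))

lemma Config.eventually_col_arc (h : Config K) (p : ℂ) (θ : ℝ) :
    ∀ᶠ s in 𝓝 θ, col K (p + uv s) ⊆ col K (p + uv θ) :=
  (Continuous.tendsto (by have := continuous_uv; fun_prop) θ : Tendsto (fun s => p + uv s) (𝓝 θ)
    (𝓝 (p + uv θ))).eventually (h.eventually_col _)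

lemma Config.exists_gen_near (h : Config K) (p : ℂ) {θ : ℝ} {P : ℝ → Prop}
    (hP : ∀ᶠ s in 𝓝 θ, P s) : ∃ s, Gen K p s ∧ P s := by
  obtain ⟨U, hU, hUo, hθ⟩ := eventually_nhds_iff.1 hP
  obtain ⟨s, hs1, hs2⟩ := (h.dense_gen p).inter_open_nonempty U hUo ⟨θ, hθ⟩
  exact ⟨s, hs2, hU s hs1⟩

/-- Simultaneous genericity at `s` and at `s + π / 3`. -/
lemma Config.gen_pair (h : Config K) (x : ℂ) {θ : ℝ} {P : Finset (Fin 5) → Prop}
    (hf : ∃ᶠ s in 𝓝 θ, Gen K x s ∧ P (col K (x + uv s))) :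
    ∃ᶠ s in 𝓝 θ, Gen K x s ∧ Gen K x (s + Real.pi / 3) ∧ P (col K (x + uv s)) := by
  refine frequently_nhds_iff.2 fun {U} hθ hUo => ?_
  obtain ⟨s, ⟨hs, hsP⟩, hsU⟩ := (hf.and_eventually (hUo.mem_nhds hθ)).exists
  obtain ⟨V, hV, hVo, hsV⟩ := eventually_nhds_iff.1 ((hs.nearby).and (hUo.mem_nhds hsU))
  obtain ⟨t, ht1, ht2⟩ := (h.dense_gens (fun _ : Unit => x) (fun _ => Real.pi / 3)).2
    |>.inter_open_nonempty V hVo ⟨s, hsV⟩
  obtain ⟨⟨hg, hc⟩, htU⟩ := hV t ht1
  exact ⟨t, htU, hg, ht2 (), by rwa [col_gen hc]⟩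

lemma Config.col_of_frequently (h : Config K) {p : ℂ} {θ : ℝ} {c : Fin 5}
    (hf : ∃ᶠ s in 𝓝 θ, c ∈ col K (p + uv s)) : c ∈ col K (p + uv θ) := by
  by_contra hc
  obtain ⟨s, h1, h2⟩ := (hf.and_eventually (h.eventually_col_arc p θ)).exists
  exact hc (h2 h1)

lemma Config.col_nonempty (h : Config K) (x : ℂ) : (col K x).Nonempty := by
  obtain ⟨c, hc⟩ := h.cover x
  exact ⟨c, mem_col.2 hc⟩

/-- An inner arc of a three-coloured point. -/
lemma Config.inner (h : Config K) {p : ℂ} {s : ℝ} (h3 : (col K p).card = 3) (hg : Gen K p s)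
    (hsub : col K (p + uv s) ⊆ col K p) :
    (col K (p + uv s)).card = 2 ∧
      ∃ r ∈ col K p, r ∉ col K (p + uv s) ∧ ∀ z, ‖z - p‖ = 1 → r ∉ col K z := by
  set Q := col K (p + uv s)
  have hle := Finset.card_le_card hsub
  have hne : Q.card ≠ 0 := by
    simpa [Finset.card_eq_zero] using (h.col_nonempty (p + uv s)).ne_empty
  have h1 : Q.card ≠ 1 := by
    intro h1
    obtain ⟨c, hc⟩ := Finset.card_eq_one.1 h1
    have hall : ∀ c', p + uv s ∈ K c' → c' = c := by
      intro c' hc'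
      have : c' ∈ Q := mem_col.2 hc'
      simpa [hc] using this
    exact h.single (show ‖p + uv s - p‖ = 1 by simp) hall
      (mem_col.1 (hsub (by simp [hc])))
  have h3' : Q.card ≠ 3 := by
    intro h3'
    obtain ⟨c, hc, hA, -⟩ := h.seg_exists p s
    have : Q = col K p := Finset.eq_of_subset_of_card_le hsub (by omega)
    exact hA (hg.arc (mem_col.1 (show c ∈ Q by rw [this]; exact mem_col.2 hc)))
  have h2 : Q.card = 2 := by omega
  refine ⟨h2, ?_⟩
  obtain ⟨r, hr⟩ := Finset.card_eq_one.1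
    (show (col K p \ Q).card = 1 by rw [Finset.card_sdiff_of_subset hsub]; omega)
  have hr' : r ∈ col K p ∧ r ∉ Q := Finset.mem_sdiff.1 (by simp [hr])
  refine ⟨r, hr'.1, hr'.2, fun z hz hzr => ?_⟩
  have huniq : ∀ τ, (∀ c, (p + uv τ ∈ K c ↔ p + uv s ∈ K c)) → Gen K p τ →
      crs (z - p) (uv τ) = 0 := by
    intro τ hτ hgτ
    refine h.seg_absent (fun c hc hcr => Or.inl (hgτ.arc ((hτ c).2 ?_))) (mem_col.1 hzr) hz
    refine mem_col.1 ?_
    by_contra hcQ
    have hcd : c ∈ col K p \ Q := Finset.mem_sdiff.2 ⟨mem_col.2 hc, hcQ⟩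
    rw [hr] at hcd
    exact hcr (Finset.mem_singleton.1 hcd)
  obtain ⟨η, hη, hN⟩ := Metric.eventually_nhds_iff.1 hg.nearby
  set t := min (η / 2) 1
  have ht : 0 < t := lt_min (by positivity) one_pos
  obtain ⟨g1, c1⟩ := hN (show dist s s < η by simpa using hη)
  obtain ⟨g2, c2⟩ := hN (show dist (s + t) s < η by
    rw [Real.dist_eq, add_sub_cancel_left, abs_of_pos ht]
    have := min_le_left (η / 2) 1; linarith)
  have e1 := huniq s c1 g1
  have e2 := huniq (s + t) c2 g2
  have hsin : 0 < Real.sin t :=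
    Real.sin_pos_of_pos_of_lt_pi ht (by linarith [min_le_right (η / 2) 1, Real.pi_gt_three])
  have e : crs (z - p) (uv (s + t))
      = crs (z - p) (uv s) * Real.cos t - dot (z - p) (uv s) * Real.sin t := by
    simp only [crs, dot, uv_re, uv_im, Real.cos_add, Real.sin_add]; ring
  have hdot : dot (z - p) (uv s) = 0 := by
    rw [e1, e2] at e
    have : dot (z - p) (uv s) * Real.sin t = 0 := by linarith
    simpa [hsin.ne'] using this
  have hn : ‖z - p‖ ^ 2 = dot (z - p) (uv s) ^ 2 + crs (z - p) (uv s) ^ 2 := by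
    simp only [Complex.sq_norm, Complex.normSq_apply, dot, crs, uv_re, uv_im]
    linear_combination (-((z - p).re ^ 2 + (z - p).im ^ 2)) * Real.sin_sq_add_cos_sq s
  rw [hz, hdot, e1] at hn
  norm_num at hn

lemma Config.side (h : Config K) {x y y' : ℂ} {φ : ℝ} {d e a : Fin 5}
    (hle : ∀ q, (col K q).card ≤ 3) (hxy : ‖x - y‖ = 1) (hy' : y + uv φ = y')
    (hxy' : ‖y' - x‖ = 1)
    (hcr : crs (x - y) (uv φ) ≠ 0) (hde : d ≠ e) (hy : col K y = {d, e, a})
    (had : a ≠ d) (hae : a ≠ e) (ha : a ∈ col K x) (hd : d ∈ col K y') (he : e ∈ col K y')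
    (hx : ∀ b, b ≠ d → b ≠ e → b ∈ col K x) : False := by
  have h3 : (col K y).card = 3 := by
    rw [hy, Finset.card_eq_three]; exact ⟨d, e, a, hde, had.symm, hae.symm, rfl⟩
  have hy'n : ‖y' - y‖ = 1 := by simp [← hy']
  have hno : ∀ s, Gen K y s → ¬ col K (y + uv s) ⊆ col K y := by
    intro s hs hsub
    obtain ⟨-, r, hr, -, habs⟩ := h.inner h3 hs hsub
    rw [hy] at hr
    simp only [Finset.mem_insert, Finset.mem_singleton] at hr
    rcases hr with rfl | rfl | rfl
    · exact habs y' hy'n hd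
    · exact habs y' hy'n he
    · exact habs x hxy ha
  have hev : ∀ᶠ s in 𝓝 φ, col K (y + uv s) ⊆ col K y' := hy' ▸ h.eventually_col_arc y φ
  obtain ⟨b, hb, hby⟩ : ∃ b ∈ col K y', b ∉ col K y := by
    by_contra! hsub
    obtain ⟨s, hs, hs'⟩ := h.exists_gen_near y hev
    exact hno s hs (hs'.trans hsub)
  simp only [hy, Finset.mem_insert, Finset.mem_singleton, not_or] at hby
  have hsub' : col K y' ⊆ {d, e, b} := by
    have h1 : ({d, e, b} : Finset (Fin 5)) ⊆ col K y' := by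
      simp [Finset.insert_subset_iff, hd, he, hb]
    have h2 : ({d, e, b} : Finset (Fin 5)).card = 3 :=
      Finset.card_eq_three.2 ⟨d, e, b, hde, Ne.symm hby.1, Ne.symm hby.2.1, rfl⟩
    exact (Finset.eq_of_subset_of_card_le h1 (by rw [h2]; exact hle y')).symm.subset
  obtain ⟨U, hU, hUo, hφ⟩ := eventually_nhds_iff.1 hev
  have harc : Arc K y φ b := by
    refine eventually_nhds_iff.2 ⟨U, fun τ hτ => ?_, hUo, hφ⟩
    by_contra hcon
    have ho : IsOpen (U ∩ {s | y + uv s ∉ K b}) :=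
      hUo.inter ((h.closed b).isOpen_compl.preimage (by have := continuous_uv; fun_prop))
    obtain ⟨s, ⟨hs1, hs2⟩, hs3⟩ := (h.dense_gen y).inter_open_nonempty _ ho ⟨τ, hτ, hcon⟩
    refine hno s hs3 fun c hc => ?_
    have hc' := hsub' (hU s hs1 hc)
    simp only [Finset.mem_insert, Finset.mem_singleton] at hc'
    rcases hc' with rfl | rfl | rfl
    · simp [hy]
    · simp [hy]
    · exact absurd (mem_col.1 hc) hs2
  refine hcr (h.cross harc (mem_col.1 (hx b hby.1 hby.2.1)) ?_)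
  rwa [hy']

lemma uv_third (θ : ℝ) :
    uv θ + uv (θ + 2 * Real.pi / 3) = uv (θ + Real.pi / 3) ∧
      uv (θ + Real.pi / 3) + uv (θ - Real.pi / 3) = uv θ := by
  have h1 : Real.cos (2 * Real.pi / 3) = -(1 / 2) := by
    rw [show 2 * Real.pi / 3 = Real.pi - Real.pi / 3 by ring, Real.cos_pi_sub,
      Real.cos_pi_div_three]
  have h2 : Real.sin (2 * Real.pi / 3) = Real.sqrt 3 / 2 := by
    rw [show 2 * Real.pi / 3 = Real.pi - Real.pi / 3 by ring, Real.sin_pi_sub,
      Real.sin_pi_div_three]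
  constructor <;> apply Complex.ext <;>
    simp only [Complex.add_re, Complex.add_im, uv_re, uv_im, Real.cos_add, Real.sin_add,
      Real.cos_sub, Real.sin_sub, h1, h2, Real.cos_pi_div_three, Real.sin_pi_div_three] <;>
    ring

/-- A three-coloured point has an inner arc. -/
lemma Config.no_outer (h : Config K) (hle : ∀ q, (col K q).card ≤ 3) {x : ℂ}
    (h3 : (col K x).card = 3)
    (hout : ∀ s, Gen K x s → ¬ col K (x + uv s) ⊆ col K x) : False := by
  obtain ⟨d, e, hde, hD⟩ := Finset.card_eq_two.1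
    (show (col K x)ᶜ.card = 2 by rw [Finset.card_compl, h3]; rfl)
  have hmem : ∀ b, b ≠ d → b ≠ e → b ∈ col K x := by
    intro b hb hb'
    by_contra hbx
    have : b ∈ (col K x)ᶜ := Finset.mem_compl.2 hbx
    simp [hD, hb, hb'] at this
  have hor : ∀ s, Gen K x s → d ∈ col K (x + uv s) ∨ e ∈ col K (x + uv s) := by
    intro s hs
    obtain ⟨c, hc, hcx⟩ := Finset.not_subset.1 (hout s hs)
    have : c ∈ (col K x)ᶜ := Finset.mem_compl.2 hcx
    simp only [hD, Finset.mem_insert, Finset.mem_singleton] at this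
    rcases this with rfl | rfl <;> simp [hc]
  have hrot : ∀ s c, Gen K x s → c ∈ col K (x + uv s) → c ∉ col K (x + uv (s + Real.pi / 3)) :=
    fun s c hs hc hc' => hs.rot h (mem_col.1 hc) (mem_col.1 hc')
  obtain ⟨t, -, htg⟩ := (h.dense_gens (fun _ : Bool => x)
    (fun b => cond b (Real.pi / 3) 0)).2.inter_open_nonempty univ isOpen_univ ⟨0, trivial⟩
  have g0 : Gen K x t := by simpa using htg false
  have g1 : Gen K x (t + Real.pi / 3) := htg true
  have ex1 : ∃ s, Gen K x s ∧ d ∈ col K (x + uv s) := by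
    by_contra! hcon
    exact hrot t e g0 ((hor t g0).resolve_left (hcon t g0))
      ((hor _ g1).resolve_left (hcon _ g1))
  have ex2 : ∃ s, Gen K x s ∧ ¬ d ∈ col K (x + uv s) := by
    by_contra! hcon
    exact hrot t d g0 (hcon t g0) (hcon _ g1)
  obtain ⟨θ, hA, hB⟩ := h.change x (fun s => d ∈ col K (x + uv s)) ex1 ex2
  have hA' := h.gen_pair x (P := fun C => d ∈ C) hA
  have hB' := h.gen_pair x (P := fun C => d ∉ C) hB
  set y₀ := x + uv θ with hy₀
  set y₁ := x + uv (θ + Real.pi / 3) with hy₁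
  have shift : ∀ c, (∃ᶠ s in 𝓝 θ, c ∈ col K (x + uv (s + Real.pi / 3))) → c ∈ col K y₁ :=
    fun c hc => h.col_of_frequently (((continuous_add_const _).tendsto θ).frequently hc)
  have d0 : d ∈ col K y₀ := h.col_of_frequently (hA.mono fun s hs => hs.2)
  have e0 : e ∈ col K y₀ :=
    h.col_of_frequently (hB.mono fun s hs => (hor s hs.1).resolve_left hs.2)
  have e1 : e ∈ col K y₁ := shift e (hA'.mono fun s ⟨h1, h2, h3⟩ =>
    (hor _ h2).resolve_left (hrot s d h1 h3))
  have d1 : d ∈ col K y₁ := shift d (hB'.mono fun s ⟨h1, h2, h3⟩ =>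
    (hor _ h2).resolve_right (hrot s e h1 ((hor s h1).resolve_left h3)))
  have hne : ∀ y, d ∈ col K y → e ∈ col K y → ¬ col K y ⊆ {d, e} →
      ∃ a, a ≠ d ∧ a ≠ e ∧ a ∈ col K x ∧ col K y = {d, e, a} := by
    intro y hd he hn
    obtain ⟨a, ha, ha'⟩ := Finset.not_subset.1 hn
    simp only [Finset.mem_insert, Finset.mem_singleton, not_or] at ha'
    refine ⟨a, ha'.1, ha'.2, hmem a ha'.1 ha'.2, (Finset.eq_of_subset_of_card_le ?_ ?_).symm⟩
    · simp [Finset.insert_subset_iff, hd, he, ha]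
    · rw [show ({d, e, a} : Finset (Fin 5)).card = 3 from
        Finset.card_eq_three.2 ⟨d, e, a, hde, Ne.symm ha'.1, Ne.symm ha'.2, rfl⟩]
      exact hle y
  obtain ⟨u1, u2⟩ := uv_third θ
  have n0 : ‖x - y₀‖ = 1 := by simp [hy₀]
  have n1 : ‖x - y₁‖ = 1 := by simp [hy₁]
  have hy01 : y₀ + uv (θ + 2 * Real.pi / 3) = y₁ := by rw [hy₀, hy₁, add_assoc, u1]
  have hy10 : y₁ + uv (θ - Real.pi / 3) = y₀ := by rw [hy₀, hy₁, add_assoc, u2]
  have hs3 : (0 : ℝ) < Real.sin (2 * Real.pi / 3) :=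
    Real.sin_pos_of_pos_of_lt_pi (by positivity) (by linarith [Real.pi_pos])
  have hneg : ∀ a b : ℝ, crs (-uv a) (uv b) = -Real.sin (a - b) := by
    intro a b; rw [← crs_uv]; simp only [crs, Complex.neg_re, Complex.neg_im]; ring
  have c0 : crs (x - y₀) (uv (θ + 2 * Real.pi / 3)) ≠ 0 := by
    rw [hy₀, show x - (x + uv θ) = -uv θ by ring, hneg,
      show θ - (θ + 2 * Real.pi / 3) = -(2 * Real.pi / 3) by ring, Real.sin_neg]
    linarith
  have c1 : crs (x - y₁) (uv (θ - Real.pi / 3)) ≠ 0 := by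
    rw [hy₁, show x - (x + uv (θ + Real.pi / 3)) = -uv (θ + Real.pi / 3) by ring, hneg,
      show θ + Real.pi / 3 - (θ - Real.pi / 3) = 2 * Real.pi / 3 by ring]
    linarith
  by_cases h0 : col K y₀ ⊆ {d, e}
  · by_cases h1 : col K y₁ ⊆ {d, e}
    · have hnb : ∀ y, col K y ⊆ {d, e} → ∀ᶠ z in 𝓝 y, ∀ c, z ∈ K c → c = d ∨ c = e := by
        intro y hy
        filter_upwards [h.eventually_col y] with z hz c hc
        simpa using hy (hz (mem_col.2 hc))
      exact h.two_col hde (show ‖y₁ - y₀‖ = 1 by simp [← hy01]) (hnb _ h0) (hnb _ h1)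
        (mem_col.1 d0) (mem_col.1 e0)
    · obtain ⟨a, ha1, ha2, hax, hy⟩ := hne y₁ d1 e1 h1
      exact h.side hle n1 hy10 (by rwa [norm_sub_rev]) c1 hde hy ha1 ha2 hax d0 e0 hmem
  · obtain ⟨a, ha1, ha2, hax, hy⟩ := hne y₀ d0 e0 h0
    exact h.side hle n0 hy01 (by rwa [norm_sub_rev]) c0 hde hy ha1 ha2 hax d1 e1 hmem

/-- If no point has four colours then no point has three. -/
theorem Config.no_triple (h : Config K) (hle : ∀ q, (col K q).card ≤ 3) {x : ℂ} :
    (col K x).card ≠ 3 := by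
  intro h3
  by_cases hin : ∀ s, Gen K x s → ¬ col K (x + uv s) ⊆ col K x
  · exact h.no_outer hle h3 hin
  push Not at hin
  obtain ⟨s₀, hs₀, hsub₀⟩ := hin
  obtain ⟨h2, -⟩ := h.inner h3 hs₀ hsub₀
  obtain ⟨a, b, hab, hQ⟩ := Finset.card_eq_two.1 h2
  have hax : a ∈ col K x := hsub₀ (by simp [hQ])
  have hbx : b ∈ col K x := hsub₀ (by simp [hQ])
  obtain ⟨t, -, htg⟩ := (h.dense_gens (fun _ : Bool => x)
    (fun b => cond b (Real.pi / 3) 0)).2.inter_open_nonempty univ isOpen_univ ⟨0, trivial⟩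
  have ex2 : ∃ s, Gen K x s ∧ ¬ col K (x + uv s) = {a, b} := by
    by_contra! hcon
    have g0 : Gen K x t := by simpa using htg false
    have e0 := hcon t g0
    have e1 := hcon (t + Real.pi / 3) (htg true)
    exact g0.rot h (mem_col.1 (show a ∈ col K (x + uv t) by simp [e0]))
      (mem_col.1 (show a ∈ col K (x + uv (t + Real.pi / 3)) by simp [e1]))
  obtain ⟨θ, hA, hB⟩ := h.change x (fun s => col K (x + uv s) = {a, b}) ⟨s₀, hs₀, hQ⟩ ex2
  set v := x + uv θ with hv
  have hva : a ∈ col K v := h.col_of_frequently (hA.mono fun s hs => by simp [hs.2])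
  have hvb : b ∈ col K v := h.col_of_frequently (hA.mono fun s hs => by simp [hs.2])
  have hv3 : (col K v).card = 3 := by
    refine le_antisymm (hle v) ?_
    by_contra hlt
    push Not at hlt
    have hveq : col K v = {a, b} := (Finset.eq_of_subset_of_card_le
      (by simp [Finset.insert_subset_iff, hva, hvb])
      (by rw [Finset.card_pair hab]; omega)).symm
    obtain ⟨s, ⟨-, hne⟩, hs2⟩ := (hB.and_eventually (h.eventually_col_arc x θ)).exists
    rw [← hv, hveq] at hs2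
    have hlt1 : (col K (x + uv s)).card < 2 := by
      rw [← Finset.card_pair hab]
      exact Finset.card_lt_card (Finset.ssubset_iff_subset_ne.2 ⟨hs2, hne⟩)
    have hpos := (h.col_nonempty (x + uv s)).card_pos
    obtain ⟨c, hc⟩ := Finset.card_eq_one.1 (show (col K (x + uv s)).card = 1 by omega)
    have hall : ∀ c', x + uv s ∈ K c' → c' = c := fun c' hc' => by
      simpa [hc] using mem_col.2 hc'
    have hcx : c ∈ col K x := by
      have : c ∈ ({a, b} : Finset (Fin 5)) := hs2 (by simp [hc])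
      simp only [Finset.mem_insert, Finset.mem_singleton] at this
      rcases this with rfl | rfl
      · exact hax
      · exact hbx
    exact h.single (show ‖x + uv s - x‖ = 1 by simp) hall (mem_col.1 hcx)
  refine h.no_outer hle hv3 fun φ hφ hsubφ => ?_
  obtain ⟨hφ2, r, hr, hrQ, habs⟩ := h.inner hv3 hφ hsubφ
  have hrx : r ∉ col K x := habs x (by simp [hv])
  have haQ : ∀ c ∈ col K v, c ≠ r → c ∈ col K (v + uv φ) := by
    intro c hc hcr
    by_contra hcQ
    have : 2 ≤ (col K v \ col K (v + uv φ)).card := by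
      rw [← Finset.card_pair hcr]
      exact Finset.card_le_card (by simp [Finset.insert_subset_iff, hc, hr, hrQ, hcQ])
    rw [Finset.card_sdiff_of_subset hsubφ] at this
    omega
  have hQ' : col K (v + uv φ) = {a, b} := (Finset.eq_of_subset_of_card_le
    (by simp [Finset.insert_subset_iff, haQ a hva (fun e => hrx (e ▸ hax)),
      haQ b hvb (fun e => hrx (e ▸ hbx))])
    (by rw [Finset.card_pair hab, hφ2])).symm
  set w := v + uv φ with hw
  have hN : ∀ᶠ q in 𝓝 w, ∀ c, q ∈ K c → c = a ∨ c = b := by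
    filter_upwards [h.eventually_col w] with q hq c hc
    simpa [hQ'] using hq (mem_col.2 hc)
  have ht : Tendsto (fun τ => x + uv τ + (w - v)) (𝓝 θ) (𝓝 w) := by
    have hc : Continuous fun τ => x + uv τ + (w - v) := by have := continuous_uv; fun_prop
    simpa [hv] using hc.tendsto θ
  obtain ⟨τ, ⟨hτg, hτ⟩, hτw⟩ := (hA.and_eventually (ht.eventually hN.eventually_nhds)).exists
  refine h.two_col hab (show ‖x + uv τ + (w - v) - (x + uv τ)‖ = 1 by simp [hw]) ?_ hτw
    (mem_col.1 (by simp [hτ])) (mem_col.1 (by simp [hτ]))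
  filter_upwards [h.eventually_col (x + uv τ)] with q hq c hc
  simpa [hτ] using hq (mem_col.2 hc)

end Vale.Agent.P032
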